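import Crest.Agent.X212.Rf65.Ps
import Crest.Agent.X212.Nat75.Fam
import Crest.Agent.X212.Nat75.Reg

/-!
# Row 212, twins (helper5): what the numbers need from the regions and from the objects
-/

set_option autoImplicit false
set_option linter.unusedSectionVars false
noncomputable section
open scoped Manifold ContDiff Topology InnerProductSpace
open MeasureTheory Set Function Filter

namespace Crest.Agent.X212.Twn5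
open An M Nd18 Mod61 Nk89 Cht98 Rdc90 G75 Ins26 Jb7 Rf65
open Nat75 (pl tr)

variable {κ lam : Type} [Fintype κ] [Fintype lam] [DecidableEq lam] {Lm : LM κ lam}
  {S S' : Scene Lm} {D : S.Dat} {D' : S'.Dat} {i : S.L} {i' : S'.L} {Wi Wi' : Type} {r n : ℕ}

/-- the pieces outside `R` -/
def OP (R : S.A) (c : S.M.Cl) : Set (Reg S.A) := {ρ ∈ Pc c | S.M.sys.U ρ ⊆ (S.M.sys.w R).sd true}

variable (J : Job Wi (D.Λ i) (S.A ⊕ Unit) S.ls r n) (J' : Job Wi' (D'.Λ i') (S'.A ⊕ Unit) S'.ls r n)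
  {A₀ : Type} (f : A₀ ↪ S.A) (f' : A₀ ↪ S'.A) (R₀ : A₀) (E : Finset S.A) (z : ℕ)
  (c : S.M.Cl) (c' : S'.M.Cl)

/-- **regions**: the face `c` of `σ` and the face `c'` of `σ'`; a piece `ρ` goes to `pl f' f ρ` -/
structure RG (σ : Cel (S.A ⊕ Unit)) (σ' : Cel (S'.A ⊕ Unit)) : Prop where
  cc : c'.1 = f' '' (f ⁻¹' c.1)
  cell : ∀ s ∈ Job.cl σ, Sys.inf (J.Θ s).2 = c.1 →
    tr f f' s ∈ Job.cl σ' ∧ Sys.inf (J'.Θ (tr f f' s)).2 = c'.1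
  cyl : cylW c ⊆ range f
  ls : cylW c' ⊆ insert (f' R₀) S'.ls
  lsc : ∀ a, f a ∈ cylW c → f a ∈ S.ls → f' a ∈ S'.ls
  pc : BijOn (pl f' f) (OP (f R₀) c) (OP (f' R₀) c')
  out : ∀ a ∈ cylW c, a ≠ f R₀ → (S.M.sys.w a).band ⊆ (S.M.sys.w (f R₀)).sd true
  inn : ∀ ρ ∈ OP (f R₀) c, ∀ a, f' a ∈ S'.M.sys.inn (pl f' f ρ) → f a ∈ S.M.sys.inn ρ
  nn : ∀ a b, (S.M.sys.w (f b)).band ⊆ (S.M.sys.w (f a)).sd true →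
    (S'.M.sys.w (f' b)).band ⊆ (S'.M.sys.w (f' a)).sd true
  pn : ∀ a ∈ c.1, S.M.pin a → (S.M.sys.w a).band ⊆ (S.M.sys.w (f R₀)).sd true → a ∈ range f
  lv : ∀ F ⊆ OP (f R₀) c, (J.lv (shX S {f R₀}) σ c F).ncard ≤
    (J'.lv (shX S' {f' R₀}) σ' c' (pl f' f '' F)).ncard
  cs : ∀ F ⊆ OP (f R₀) c, ∀ a h h', J'.nb ⟨f' a, h'⟩ ⊆ ⋃ π ∈ pl f' f '' F, S'.M.sys.U π →
    J.nb ⟨f a, h⟩ ⊆ ⋃ π ∈ F, S.M.sys.U π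
  unc : ∀ a h h', ⟨f' a, h'⟩ ∈ J'.unc c' → S'.nb ⟨f' a, h'⟩ ⊆ (S'.M.sys.w (f' R₀)).sd true →
    ⟨f a, h⟩ ∈ J.unc c ∧ S.nb ⟨f a, h⟩ ⊆ (S.M.sys.w (f R₀)).sd true
  rel : ∀ (c₀ : S.M.Cl) π₀, c₀.1 = {a ∈ c.1 | S.M.pin a} → S.M.sys.Piece c₀.1 π₀ →
    f R₀ ∈ S.M.sys.inn π₀ → ∀ β sg l2, S.Nb i (S.M.sys.U π₀) β sg l2 →
    ∃ (c₀' : S'.M.Cl) (π₀' : Reg S'.A) (β' sg' l2' : ℝ), c₀'.1 = {a ∈ c'.1 | S'.M.pin a} ∧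
      S'.M.sys.Piece c₀'.1 π₀' ∧ f' R₀ ∈ S'.M.sys.inn π₀' ∧ S'.Nb i' (S'.M.sys.U π₀') β' sg' l2' ∧
      β = β' + 1 ∧ l2 - sg - zc c E z = l2' - sg' ∧
      (∀ ρ ∈ OP (f R₀) c, S'.M.sys.U (pl f' f ρ) ⊆ S'.M.sys.U π₀' ↔ S.M.sys.U ρ ⊆ S.M.sys.U π₀) ∧
      ∀ a, f a ∈ cylW c → (f' a ∈ S'.M.sys.inn π₀' ↔ f a ∈ S.M.sys.inn π₀)

/-- relations between limits -/
abbrev BR : Type := ∀ a, YC (J.xs (f a)).Y.M κ (lam ⊕ lam) → YC (J'.xs (f' a)).Y.M κ (lam ⊕ lam) → Prop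

/-- **limits** -/
structure LI (br : BR J J' f f') (a : A₀) : Prop where
  tot : ∀ β, ∃ β', br a β β'
  bs : ∀ β β', br a β β' → Bs (J.xs (f a)).D β → Bs (J'.xs (f' a)).D β'
  dz : ∀ β β', br a β β' → dz (J'.xs (f' a)).D β' = dz (J.xs (f a)).D β
  dh : ∀ β β', br a β β' → dh (J'.xs (f' a)).D β' = dh (J.xs (f a)).D β
  eqv : ∀ β β' γ γ', br a β β' → br a γ γ' → (J.xs (f a)).D.Eqv β γ → (J'.xs (f' a)).D.Eqv β' γ'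

variable {J J' f f' c c'} in
/-- `y'` is `y` outside `R` -/
structure Tp (br : BR J J' f f') (δ : ℝ) (y : J.Obc c) (y' : J'.Obc c') : Prop where
  s : y'.s = tr f f' y.s
  β : ∀ a, f a ∈ cylW c → ∀ b, br a (y.β (f a) b) (y'.β (f' a) b)
  pc : ∀ ρ ∈ OP (f R₀) c, Go δ y {ρ} → Go δ y' {pl f' f ρ} ∧ CId y {ρ} y' {pl f' f ρ} ∧
    (y.TA ρ → y'.TA (pl f' f ρ)) ∧ (∀ ε, EA ε y ρ → EA ε y' (pl f' f ρ)) ∧ (Un y ρ → Un y' (pl f' f ρ))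

/-- **objects** -/
def OB : Prop := ∃ br : BR J J' f f', (∀ a, f a ∈ cylW c → LI J J' f f' br a) ∧
  ∀ δ > 0, DfAt J' c' δ (f' R₀) → ∀ σ ∈ J.𝒦, ∀ σ' ∈ J'.𝒦, RG J J' f f' R₀ E z c c' σ σ' →
    ∀ y : J.Obc c, y.s ∈ Job.cl σ → Sys.inf (J.Θ y.s).2 = c.1 → Adm0 y.x.con (J.B c) (J.G c y.s) →
      ∃ y' : J'.Obc c', Tp R₀ br δ y y'

/-- **TW-REG** -/
def RegI : Prop := ∀ c : S.M.Cl, f R₀ ∈ c.1 → ∀ σ ∈ J.𝒦, ∀ s ∈ Job.cl σ, Sys.inf (J.Θ s).2 = c.1 →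
  ∃ c', ∃ σ' ∈ J'.𝒦, RG J J' f f' R₀ E z c c' σ σ'

/-- **TW-OBJ** -/
def ObjI : Prop := ∀ (c : S.M.Cl) (c' : S'.M.Cl), f R₀ ∈ c.1 → c'.1 = f' '' (f ⁻¹' c.1) →
  OB J J' f f' R₀ E z c c'

/-- the global facts -/
structure GI : Prop where
  ok : J.OK
  ok' : J'.OK
  ne : J'.𝒦.Nonempty
  nat : ∀ c c', INat J c J' c'
  pin : ∀ a, S'.M.pin (f' a) ↔ S.M.pin (f a)
  bk : ∀ l ∈ S'.ls, ∃ a, f' a = l ∧ f a ∈ S.ls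
  k : J'.k = J.k - z / 4

end Crest.Agent.X212.Twn5
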