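import Crest.Agent.X212.Twn5.Oj

/-!
# Row 212, twins (helper5): critical limits on literally identified ends (after `Nat27/Lm`)
-/

set_option autoImplicit false
set_option linter.unusedSectionVars false
noncomputable section
open scoped Manifold ContDiff Topology InnerProductSpace
open MeasureTheory Set Function Filter

namespace Crest.Agent.X212.Twn5
open An M Cyf70 Nd18 Pj41 Tmp64 Bki64 Eqv71 Neck67 Cht98
open Rf65 (ParY dz hp)

section gen
variable {E : Type} [NormedAddCommGroup E] [NormedSpace ℝ E] [FiniteDimensional ℝ E]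
  [MeasurableSpace E] [BorelSpace E]
  {HM : Type} [TopologicalSpace HM] {I : ModelWithCorners ℝ E HM} [I.Boundaryless]
  {M : Type} [TopologicalSpace M] [ChartedSpace HM M] [IsManifold I ∞ M] [MeasurableSpace M]
  {E' : Type} [NormedAddCommGroup E'] [NormedSpace ℝ E'] [FiniteDimensional ℝ E']
  [MeasurableSpace E'] [BorelSpace E']
  {HM' : Type} [TopologicalSpace HM'] {I' : ModelWithCorners ℝ E' HM'} [I'.Boundaryless]
  {M' : Type} [TopologicalSpace M'] [ChartedSpace HM' M'] [IsManifold I' ∞ M'] [MeasurableSpace M']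
  {ι lam : Type} [Fintype ι] [Fintype lam] {F : Fr I M ι} {F' : Fr I' M' ι} {ψ : M → M'}
  {O : Set M} {O' : Set M'} {k r r' : ℕ} {η : ℝ}

theorem frel_sy {g : M ≃ₘ^∞⟮I, I'⟯ M'} (h : FRel F F' g univ) : FRel F' F g.symm univ :=
  ⟨isOpen_univ, fun x _ => g.symm.isLocalDiffeomorph x, fun a y _ => by
    obtain ⟨x, rfl⟩ := g.surjective y
    have e := Dr59.mf_comp (g.symm.mdifferentiable (by simp) (g x)) (g.mdifferentiable (by simp) x)
    rw [show g.symm ∘ g = id from funext g.symm_apply_apply, Dr59.mf_id] at e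
    exact (congrArg (Dr59.mf I' I g.symm (g x)) (h.e a x trivial).symm).trans
      ((DFunLike.congr_fun e (F.e a x)).symm.trans
      (congrArg (fun z => (F.e a z : E)) (g.symm_apply_apply x).symm))⟩

theorem lb_pl (h : FRel F F' ψ O) (mp : MapsTo ψ O O') {N : Type} [NormedAddCommGroup N]
    [NormedSpace ℝ N] {f : M' → N} (H : Lb F'.toPre O' k f η) : Lb F.toPre O k (fun x => f (ψ x)) η :=
  Lb.of_Dw (fun _ hz => h.sm hz (H.sm (mp hz))) fun w hw _ hz =>
    (h.Dw hz w (u' := f) (.of_forall fun _ => rfl)).symm ▸ H.Dw w hw _ (mp hz)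

theorem cl_pl (h : FRel F F' ψ O) (mp : MapsTo ψ O O') {c : Cfg M' ι lam r} {c' : Cfg M' ι lam r'}
    {u : M' → CL c.m.V c'.m.V} {ζ : Circle} (H : Cl F' c c' u (fun _ => ζ) O' k η) :
    Cl F (cmC ψ c) (cmC ψ c') (fun x => u (ψ x)) (fun _ => ζ) O k η :=
  ⟨h.op, cm_iso0 (fun x hx => (h.ld x hx).contMDiffAt) mp H.iso,
    fun a => (lb_pl h mp (H.A a)).congr h.op fun x hx => by
      simp only [dA, cov, h.D hx a (u := fun x => u (ψ x)) (u' := u) (.of_forall fun _ => rfl)],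
    lb_pl h mp H.P⟩

theorem sol_pl {B : Base M ι lam} {G : Geo I M ι lam} {B' : Base M' ι lam} {G' : Geo I' M' ι lam}
    (h : GRel B G B' G' ψ univ) {c : Cfg M' ι lam r} (H : c.Sol B' G' (Ink3.pz : Pt _ _ _ r 0)) :
    (cmC ψ c).Sol B G (Ink3.pz : Pt _ _ _ r 0) := by
  have s : ∀ x, B.sd x = B'.sd (ψ x) := fun x => funext₂ fun s t => by
    simp only [Base.sd, Base.a2, Base.st, h.P _ _ x trivial, h.o _ _ _ _ x trivial]
  refine ⟨admOn_univ.1 (h.admOn_iff.2 ((admOn_univ.2 H.toAdm).mono (subset_univ _))),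
    fun x => Eq.trans ?_ (H.D (ψ x)), fun x => Eq.trans ?_ (H.C (ψ x)), fun _ => rfl⟩
  · exact congrArg (· - 0) (h.fr.dir (mem_univ x) (fun _ => rfl) (fun _ => rfl)
      (.of_forall fun _ => rfl))
  · simp only [Cfg.eC, Md.mu, Md.p2, Md.q, h.fr.Fg (mem_univ x), s, cm_pg]
    rfl

end gen

variable {κ lam : Type} [Fintype κ] [Fintype lam] {Y Y' Y'' : Mf 3} [CompactSpace Y.M]
  [CompactSpace Y'.M] [CompactSpace Y''.M] {D : YD Y.I Y.M κ lam} {D' : YD Y'.I Y'.M κ lam}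
  {D'' : YD Y''.I Y''.M κ lam} {g : Y.M ≃ₘ^∞⟮Y.I, Y'.I⟯ Y'.M} {g' : Y'.M ≃ₘ^∞⟮Y'.I, Y''.I⟯ Y''.M}
  {β' : YC Y'.M κ lam} {r : ℕ}

variable (D D' g) in
/-- literal identification of cross-sections -/
structure YJ : Prop where
  fr : FRel D.F D'.F g univ
  o : ∀ a b c d y, D.o a b c d y = D'.o a b c d (g y)
  l : ∀ y, D.l y = D'.l (g y)
  il : D.il = D'.il
  a : ∀ k y, D.a k y = D'.a k (g y)

theorem yj_of {lam : Type} [Fintype lam] [DecidableEq lam] {C : Cy Y κ lam} {C' : Cy Y' κ lam}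
    (h : C.Iso C' g) (hC : C'.L.On Y'.I univ) : YJ C.yd C'.yd g :=
  ⟨⟨isOpen_univ, fun x _ => g.isLocalDiffeomorph x, fun a x _ => h.e a x⟩,
    fun a b c d y => (h.o a b c d y).symm,
    fun y => congrArg Line51.rl (congrFun (congrArg Line51.Ln.p h.L) y).symm, rfl, fun k y =>
      ((congrArg (fun v => Line51.rl (C'.L.cm _ _ v)) (h.e k y).symm).trans
        ((congrArg Line51.rl (Line51.cm_pull (hC.sm _ trivial)
          (g.mdifferentiable (by simp) y) _).symm).trans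
          (congrArg (fun L : Line51.Ln _ _ _ => Line51.rl (L.cm _ y _)) h.L))).symm⟩

namespace YJ
variable (h : YJ D D' g)
include h

theorem symm : YJ D' D g.symm :=
  ⟨frel_sy h.fr, fun a b c d y => by rw [h.o, g.apply_symm_apply],
    fun y => by rw [h.l, g.apply_symm_apply], h.il.symm, fun k y => by rw [h.a, g.apply_symm_apply]⟩

theorem trans (h' : YJ D' D'' g') : YJ D D'' (g.trans g') :=
  ⟨h.fr.trans h'.fr (mapsTo_univ _ _), fun a b c d y => (h.o a b c d y).trans (h'.o a b c d _),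
    fun y => (h.l y).trans (h'.l _), h.il.trans h'.il, fun k y => (h.a k y).trans (h'.a k _)⟩

theorem gRel : GRel D.B D.G D'.B D'.G (Prod.map g id) univ := by
  have k : FRel D.Z D'.Z (Prod.map g id) univ :=
    ⟨isOpen_univ, fun x _ => (g.prodCongr (Diffeomorph.refl 𝓘(ℝ, ℝ) ℝ ∞)).isLocalDiffeomorph x,
      fun a x _ => (DFunLike.congr_fun (((g.mdifferentiable (by simp) x.1).hasMFDerivAt.prodMap
        (hasMFDerivAt_id (I := 𝓘(ℝ, ℝ)) x.2)).mfderiv) _).trans (by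
        have e := fun v => DFunLike.congr_fun (mfderiv_id (I := 𝓘(ℝ, ℝ)) (x := x.2)) v
        cases a
        exacts [Prod.ext (map_zero (mfderiv Y.I Y'.I g x.1)) (e _),
          Prod.ext (h.fr.e _ _ trivial) (e _)])⟩
  exact ⟨k, fun a b x hx => k.P hx a b, fun a b c d x _ => h.o a b c d x.1, fun x _ => h.l x.1, h.il,
    fun a x _ => by cases a; exacts [rfl, h.a _ _]⟩

theorem crit {N : ND Y.M lam} {N' : ND Y'.M lam} (n : Ink3.Nil N) (n' : Ink3.Nil N')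
    (H : N'.Crit D' β') : N.Crit D (pb g β') :=
  n.crit.2 ⟨sol_pl h.gRel (n'.crit.1 H).1, fun _ => H.tmp _⟩

theorem par {ξ : Y'.M → β'.m.A} : ParY D (pb g β') (fun y => ξ (g y)) ↔ ParY D' β' ξ :=
  have e := fun k y => h.fr.nab (x := y) trivial (A := Rdc90.A0 (pb g β')) (A' := Rdc90.A0 β') k
    (u := fun y => ξ (g y)) (u' := ξ) rfl (.of_forall fun _ => rfl)
  ⟨fun p => ⟨g.surjective.forall.2 fun y => fsm_ld (g.isLocalDiffeomorph y) (p.sm y),
    g.surjective.forall.2 p.mem, fun k => g.surjective.forall.2 fun y => (e k y).symm.trans (p.par k y)⟩,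
    fun p => ⟨p.sm.comp g.contMDiff, fun _ => p.mem _, fun k y => (e k y).trans (p.par k _)⟩⟩

theorem dz_pb : dz D (pb g β') = dz D' β' := by
  have e : ({ξ | ParY D (pb g β') ξ} : Set (Y.M → β'.m.A)) =
      (LinearEquiv.funCongrLeft ℝ β'.m.A g.toEquiv).toLinearMap '' {ξ | ParY D' β' ξ} := by
    refine Set.ext fun ξ => ⟨fun p => ⟨fun y => ξ (g.symm y), h.par.1 ?_, ?_⟩, ?_⟩
    · simpa only [g.symm_apply_apply] using! p
    · exact funext fun y => congrArg ξ (g.symm_apply_apply y)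
    · rintro ⟨ξ, p, rfl⟩
      exact h.par.2 p
  refine Eq.trans (congrArg (fun s : Set (Y.M → β'.m.A) =>
    Module.finrank ℝ (Submodule.span ℝ s)) e) ?_
  rw [← Submodule.map_span]
  exact LinearEquiv.finrank_map_eq _ _

end YJ

variable {Z Z' : Mf 4} {B : Base Z.M (Option κ) lam} {G : Geo Z.I Z.M (Option κ) lam}
  {B' : Base Z'.M (Option κ) lam} {G' : Geo Z'.I Z'.M (Option κ) lam} {K : Nk D B G}
  {K' : Nk D' B' G'} {c : Cfg Z.M (Option κ) lam r} {c' : Cfg Z'.M (Option κ) lam r}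
  {O : Set Z.M} {O' : Set Z'.M} {φ : Z.M → Z'.M} {ψ : Z'.M → Z.M}
  {U : Z.M → Option κ → Option κ → ℝ} {v : Z.M → En lam} {u : Z.M → CL c.m.V c'.m.V}

variable (K K' g O φ U v) in
/-- literally identified necks -/
structure NJ : Prop where
  y : YJ D D' g
  J : K'.J = K.J
  sub : K.ψ.target ⊆ O
  ψ : ∀ z ∈ K.ψ.source, φ (K.ψ z) = K'.ψ (g z.1, z.2) ∧
    (∀ k l, U (K.ψ z) k l = B.P k l (K.ψ z)) ∧ v (K.ψ z) = B.l (K.ψ z)

theorem NJ.symm (h : NJ g K K' O φ U v) (k : KG B G B' G' O O' φ ψ U v) :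
    NJ g.symm K' K O' ψ (fun y a b => U (ψ y) b a) fun y => trn (v (ψ y)) := by
  have s : ∀ z ∈ K'.ψ.source, (g.symm z.1, z.2) ∈ K.ψ.source ∧
      φ (K.ψ (g.symm z.1, z.2)) = K'.ψ z := fun z hz =>
    have a : (g.symm z.1, z.2) ∈ K.ψ.source := K.mem_src.2 (h.J ▸ K'.mem_src.1 hz :)
    ⟨a, by rw [(h.ψ _ a).1, g.apply_symm_apply]⟩
  refine ⟨h.y.symm, h.J.symm, fun x hx => ?_, fun z hz => ?_⟩
  · have a := s _ (K'.ψ.map_target hx)
    rw [← K'.ψ.right_inv hx, ← a.2]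
    exact k.inv.maps (h.sub (K.ψ.map_source a.1))
  · obtain ⟨a, b⟩ := s z hz
    have e : ψ (K'.ψ z) = K.ψ (g.symm z.1, z.2) := by
      rw [← b, k.inv.linv _ (h.sub (K.ψ.map_source a))]
    have t : Prod.map g id (g.symm z.1, z.2) = z := Prod.ext (g.apply_symm_apply _) rfl
    refine ⟨e, fun i j => ?_, ?_⟩
    · rw [e, (h.ψ _ a).2.1, (k.hB.pr _).symm, K.P _ _ _ a, h.y.gRel.P _ _ _ trivial, t, K'.P _ _ _ hz]
    · rw [e, (h.ψ _ a).2.2, trn_of_sym (k.hB.lsym _), K.l _ a, h.y.gRel.l _ trivial, t, K'.l _ hz]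

theorem NJ.lim (h : NJ g K K' O φ U v) (hD : D.OK) (hO : IsOpen O) (a : Ad0 c B G)
    (a' : Ad0 c' B' G') (e : CEq G.F c c' O φ U v u 1) (hβ : D.Adm (pb g β')) (hβ' : D'.Adm β')
    {ζ : Circle} {l : Filter ℝ} (L : K'.Lim c' β' ζ l) : K.Lim c (pb g β') ζ l := by
  obtain ⟨w, L⟩ := L
  have a1 := admOn_pb K a subset_rfl
  have a2 := admOn_pb K' a' subset_rfl
  have op : IsOpen (univ ×ˢ K.J : Set (Y.M × ℝ)) := K.src ▸ K.ψ.open_source
  have a3 : AdmOn (cmC (Prod.map g id) (K'.pb (noz c'))) D.B D.G (univ ×ˢ K.J) :=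
    (h.y.gRel.mono op (subset_univ _)).admOn_iff.2 (a2.mono (by
      rintro _ ⟨z, hz, rfl⟩; exact ⟨trivial, h.J ▸ hz.2⟩))
  have s : ∀ z ∈ (univ ×ˢ K.J : Set (Y.M × ℝ)), z ∈ K.ψ.source := fun z hz => K.mem_src.2 hz.2
  have t := fun z hz => h.sub (K.ψ.map_source (s z hz))
  have su := fun z hz => K.rel.sm (s z hz) ((e.m.su _ (t z hz)).contMDiffAt (hO.mem_nhds (t z hz)))
  have q : Eq0 D.Z (K.pb (noz c)) (cmC (Prod.map g id) (K'.pb (noz c'))) (univ ×ˢ K.J)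
      fun z => u (K.ψ z) := by
    refine ⟨.of_mEq op ⟨fun z hz => (su z hz).contMDiffWithinAt, fun z hz => e.m.uu _ (t z hz),
      fun z hz => (e.m.uu' _ (t z hz)).trans (congrArg _ (h.ψ z (s z hz)).1),
      fun z hz => e.m.J _ (t z hz), fun z hz b => ?_, fun z hz x => ?_⟩ a1.ok a3.ok,
      (par0_iff (a3.conn.proj' hD.B)).2 fun z hz b => ?_,
      fun z hz => ?_, Subsingleton.elim _ _⟩
    · simpa only [h.ψ z (s z hz), K.P _ _ z (s z hz)] using! e.m.ρ _ (t z hz) b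
    · simpa only [h.ψ z (s z hz), K.l z (s z hz)] using! e.m.j _ (t z hz) x
    · simpa only [h.ψ z (s z hz), K.P _ _ z (s z hz), ← K.rel.D (s z hz) b (u' := u)
        (u := fun z => u (K.ψ z)) (.of_forall fun _ => rfl)] using! e.W _ (t z hz) b
    · simpa only [h.ψ z (s z hz), Circle.coe_one, cs_one] using! e.Φ _ (t z hz)
  refine ⟨fun z => w (Prod.map g id z) ∘L u (K.ψ z), fun k η hη => ?_⟩
  obtain ⟨S, h1, h2, h3⟩ := L k η hη
  have h4 : S ⊆ K.J := h.J ▸ h2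
  have m := prod_mono_right (s := (univ : Set Y.M)) h4
  have k1 := cl_pl (h.y.gRel.fr.mono (isOpen_univ.prod h3.op) (subset_univ _))
    (fun z hz => mk_mem_prod (mem_univ _) hz.2) (cl_of_cls (c := K'.pb (noz c')) hβ'
      (a2.mono (prod_mono_right h2)) ⟨h3.op, h3.m, h3.A, h3.P⟩)
  have k2 := (Eqv71.cl_pre (ξ := 1) k1 hβ'.adm.ok.Jsq (q.iso.mono m) (q.par.mono m)
    fun x hx => (q.Φ x (m hx)).trans (cs_one _ _).symm)
  simp only [mul_one] at k2
  have k3 := k2.cls (β := pb g β') hβ h3.op (a1.mono m)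
  exact ⟨S, h1, h4, k3.op, k3.m, k3.A, k3.P⟩

end Crest.Agent.X212.Twn5
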