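import Crest.Agent.X212.Twn5.Ol
import Crest.Agent.X212.Tw55.Bas

/-!
# Row 212, twins (helper5): **TW-OC**, the counts outside the twin walls agree
-/

set_option autoImplicit false
set_option linter.unusedSectionVars false
noncomputable section
open scoped Manifold ContDiff Topology InnerProductSpace
open MeasureTheory Set Function Filter

namespace Crest.Agent.X212.Twn5
open An M G75 Ins26 Jb7 Rf65 Tw55
open Nat75 (tr ce0 mem_sp tr_f tr_cl tr_tr inf_iff cell_hard cel_none)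
open Mp86.St (hp_some piece_hp eq_hp)

variable {κ lam : Type} [Fintype κ] [Fintype lam] [DecidableEq lam] {Lm : LM κ lam}
  {S S' : Scene Lm} {j N : ℕ} {T : ℝ} {F : Fam S j N} {F' : Fam S' j N} {i : S.L} {i' : S'.L}
  {R : S.A}

theorem U_hp (b : Bool) : S.M.sys.U (hp R b) = (S.M.sys.w R).sd b :=
  Subset.antisymm (fun _ k => k R b (hp_some.2 ⟨rfl, rfl⟩)) fun _ k _ _ e => by
    obtain ⟨rfl, rfl⟩ := hp_some.1 e
    exact k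

theorem op_eq {c : S.M.Cl} (e : c.1 = {R}) : OP R c = {hp R true} := by
  refine Subset.antisymm (fun π k => (eq_hp (S := S.M.sys) (x := R) (by rw [← e]; exact k.1)).resolve_right ?_) ?_
  · rintro rfl
    obtain ⟨x, hx⟩ := (S.M.sys.w R).ne false
    exact Wall.not_mem_sd _ hx.2 (k.2 ((U_hp false).ge hx.2))
  · rintro _ rfl
    exact ⟨show S.M.sys.Piece c.1 _ from e ▸ piece_hp true, (U_hp true).le⟩

theorem oz_eq {D : S.Dat} {c : S.M.Cl} (e : c.1 = {R}) : Oz D c R = D.W.un c {hp R true} :=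
  congrArg _ (op_eq e)

theorem nb_iff {l : S.ls} {c : S.M.Cl} {sh σ} :
    l ∈ (pO (F.job i) c sh σ R).H ↔ S.nb l ⊆ Ox S R := by
  refine (and_iff_right trivial).trans ?_
  rw [biUnion_singleton, U_hp]

section one
variable {τ : Finset S.A} (hF : F.OK T) (hσ : ce0 τ ∈ F.𝒦 i)
include hF hσ

theorem hd_in {a : S.A} (ha : a ∈ τ) : (F.job i).hd (.inl a) = some a :=
  if_pos (cell_hard hF hσ ha)

theorem cf_one (hR : R ∈ τ) : ((F.job i).cf (.inl R)).1 = {R} := Set.ext fun _ =>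
  ⟨fun k => (Option.some.inj ((hd_in hF hσ hR).symm.trans k)).symm,
    fun k => (hd_in hF hσ hR).trans (congrArg _ k.symm)⟩

theorem sd_of (ok : S.OK) (hR : R ∈ τ) (np : ¬S.M.pin R)
    (out : ∀ σ ∈ S.K i, τ ⊆ σ → ∀ a ∈ τ, a ≠ R → S.M.sys.Cmp R a → (S.M.sys.w a).band ⊆ Ox S R)
    (ins : InsI (F.job i) R) :
    Sd (F.job i) ((F.job i).cf (.inl R)) (shX S {R}) (ce0 τ) R := by
  have hJ := hF.ok i ⟨_, hσ⟩
  have c1 := cf_one hF hσ hR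
  refine ⟨hJ, hσ, c1, np, fun s h s' h' e => funext fun x => ?_, fun s h => oz_eq c1 ▸
    ins _ (c1.ge rfl) (fun a k n => (n (c1.le k)).elim) _ hσ s h.1 h.2⟩
  rcases x with a | x
  · by_cases m : a ∈ τ
    · by_cases z : a = R
      · subst z
        exact (hJ.eq_one hσ ⟨Job.cl_dom _ h.1, h.2⟩ (hd_in hF hσ m) (c1.ge rfl)).trans
          (hJ.eq_one hσ ⟨Job.cl_dom _ h'.1, h'.2⟩ (hd_in hF hσ m) (c1.ge rfl)).symm
      obtain ⟨_, _, e₁, -, σ, k₁, k₂, -⟩ := hF.cell i _ hσ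
      obtain rfl := Nat75.cel_inj e₁
      have cm : S.M.sys.Cmp a R := (ok.cell i σ k₁).1 (.inl (k₂ m)) (.inl (k₂ hR)) z
      refine e _ ⟨cel_none.2 m, fun x k n => z ?_, .inr ⟨_, rfl, a, ⟨if_neg z,
        (out σ k₁ k₂ a m z cm.symm).trans (U_hp true).ge, fun x k => ?_⟩, hd_in hF hσ m⟩⟩
      · exact (Option.some.inj ((hd_in hF hσ m).symm.trans k)).trans (c1.le n)
      · obtain ⟨_, k⟩ := Sys.mem_bd.1 k
        exact (hp_some.1 k).1 ▸ cm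
    · exact ((mem_sp.1 h.1.1).1 a m).trans ((mem_sp.1 h'.1.1).1 a m).symm
  · exact ((mem_sp.1 h.1.1).2 x).trans ((mem_sp.1 h'.1.1).2 x).symm

end one

section two
variable {Wi : Type} {X : Mf 4} {A : Type} [Fintype A] {M : Mark X A κ} {W : World M} {N : ML M lam}
  {Λ : Lns W N} {A' h : Type} [Fintype A'] [DecidableEq A'] [Fintype h] {r n : ℕ}
  {Wi₂ : Type} {X₂ : Mf 4} {A₂ : Type} [Fintype A₂] {M₂ : Mark X₂ A₂ κ} {W₂ : World M₂}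
  {N₂ : ML M₂ lam} {Λ₂ : Lns W₂ N₂} {A₃ h₂ : Type} [Fintype A₃] [DecidableEq A₃] [Fintype h₂]
  {J : Job Wi Λ A' h r n} {c : M.Cl} {J' : Job Wi₂ Λ₂ A₃ h₂ r n} {c' : M₂.Cl} {a : A} {a' : A₂}
  {s : A' → ℝ} {s' : A₃ → ℝ} {φ : (W.Z c).M → (W₂.Z c').M} {ψ : (W₂.Z c').M → (W.Z c).M}
  {U : (W.Z c).M → Option κ → Option κ → ℝ} {v : (W.Z c).M → CL (Eu (lam ⊕ lam)) (Eu (lam ⊕ lam))}

/-- the ends at identified walls are identified -/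
theorem exists_nj (hJ : J.OK) (hJ' : J'.OK) {b : Bool} (ha : Act J.m c a (some b) (J.Θ s))
    (ha' : Act J'.m c' a' (some b) (J'.Θ s')) {O : Set (W.Z c).M}
    (sub : (J.K c a _ _ ha).ψ.target ⊆ O)
    {g : (M.bn a).Y.M ≃ₘ^∞⟮(M.bn a).Y.I, (M₂.bn a').Y.I⟯ (M₂.bn a').Y.M}
    (h1 : Cy.Iso (N.cy a) (N₂.cy a') g) (h2 : ∀ y t, (if b then 0 < t else t < 0) → |t| < 1 →
      φ (W.nj c a (y, t)) = W₂.nj c' a' (g y, t) ∧
      (∀ k l, U (W.nj c a (y, t)) k l = (J.B c).P k l (W.nj c a (y, t))) ∧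
      v (W.nj c a (y, t)) = (J.B c).l (W.nj c a (y, t))) :
    ∃ g, NJ g (J.K c a _ _ ha) (J'.K c' a' _ _ ha') O φ U v := by
  have k := hJ.nk _ _ _ _ ha
  have k₂ := hJ'.nk _ _ _ _ ha'
  have p : (J.Θ s).2 a = 1 := ha.2.1.2 ha.2.2.2
  have p₂ : (J'.Θ s').2 a' = 1 := ha'.2.1.2 ha'.2.2.2
  have q := Cht98.isNk_J ha k
  have q₂ := Cht98.isNk_J ha' k₂
  rw [p] at q
  rw [p₂, ← q] at q₂
  refine ⟨((J.g a).trans g).trans (J'.g a').symm, ((yj_of (hJ.iso _ ha.1) (N.okY _)).trans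
    (yj_of h1 (N₂.okY _))).trans (yj_of (hJ'.iso _ ha'.1) (N₂.okY _)).symm, q₂, sub, fun z hz => ?_⟩
  have z1 := (J.K c a _ _ ha).mem_src.1 hz
  have z2 : Cht98.li 1 b z.2 ∈ Cht98.Hs 1 b := Cht98.li_mem le_rfl (q ▸ z1 :)
  have z3 := Cht98.isNk_ψ ha k z1
  have z4 := Cht98.isNk_ψ ha' k₂ (q := ((J'.g a').symm (g (J.g a z.1)), z.2)) (q₂ ▸ z1 :)
  rw [p] at z3
  rw [p₂, (J'.g a').apply_symm_apply] at z4
  have := h2 (J.g a z.1) _ (z2.2.resolve_left (lt_irrefl _)) (abs_lt.2 z2.1)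
  exact z3 ▸ ⟨this.1.trans z4.symm, this.2⟩

theorem el_pl (hJ : J.OK) (n : Ink3.Nil (J.xs a).N) (n' : Ink3.Nil (J'.xs a').N)
    (ha : Act J.m c a (some true) (J.Θ s)) (ha' : Act J'.m c' a' (some true) (J'.Θ s')) {g}
    (k : NJ g (J.K c a _ _ ha) (J'.K c' a' _ _ ha') (W.un c {hp a true}) φ U v)
    (hO : IsOpen (W.un c {hp a true})) {x x' u} (e : Cr J c a J' c' a' s s' φ U v x x' u 1) {ζ β'}
    (H : EL J' c' a' s' x' ζ β') : ∃ β, EL J c a s x ζ β ∧ dz (J.xs a).D β = dz (J'.xs a').D β' :=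
  have b := k.y.crit n n' H.1
  ⟨_, ⟨b, fun _ => k.lim (hJ.xs a).1.yd hO e.adm e.adm' e.e ⟨b.sol.toAdm, b.tmp⟩
    ⟨H.1.sol.toAdm, H.1.tmp⟩ (H.2 ha')⟩, k.y.dz_pb⟩

theorem Sd.act {sh σ} (S : Sd J c sh σ a) (hs : s ∈ Fa J c σ) : Act J.m c a (some true) (J.Θ s) :=
  have o : J.Ov σ c s := Job.ov_of (y := ⟨s, ⟨⟨0, 0, 0, 0, 0⟩, 0, 0, 0⟩, ∅,
      0, fun _ _ => ⟨⟨0, 0, 0, 0, 0⟩, 0, 0, 0⟩, 1, 0, 0, 0⟩) hs.1 hs.2
  ⟨S.np, S.ok.memBr S.mem o, S.ok.memO S.mem o, S.c1.ge rfl⟩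

end two

theorem fa_tr {A₀ : Type} {f : A₀ ↪ S.A} {f' : A₀ ↪ S'.A} {τ : Finset A₀} {R₀ : A₀} (hF : F.OK T)
    (hF' : F'.OK T) (ok : S.OK) (ok' : S'.OK) (hσ : ce0 (τ.map f) ∈ F.𝒦 i)
    (hσ' : ce0 (τ.map f') ∈ F'.𝒦 i') {c : S.M.Cl} {c' : S'.M.Cl} (e : c.1 = {f R₀})
    (e' : c'.1 = {f' R₀}) :
    MapsTo (tr f f') (Fa (F.job i) c (ce0 (τ.map f))) (Fa (F'.job i') c' (ce0 (τ.map f'))) := by
  refine fun s h => ⟨tr_cl h.1, Set.ext fun a => ?_⟩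
  have k : ∀ a, a ∈ τ ∧ rho (s (.inl (f a))) = 1 ↔ a = R₀ := fun a => by
    rw [← Finset.mem_map' f, ← inf_iff hF ok hσ h.1.1, h.2, e, mem_singleton_iff, f.apply_eq_iff_eq]
  rw [inf_iff hF' ok' hσ' (tr_cl h.1).1, e']
  refine ⟨fun ⟨m, n⟩ => ?_, ?_⟩
  · obtain ⟨a, m', rfl⟩ := Finset.mem_map.1 m
    exact congrArg f' ((k a).1 ⟨m', by rwa [tr_f] at n⟩)
  · rintro rfl
    exact ⟨Finset.mem_map_of_mem _ ((k _).2 rfl).1, by rw [tr_f]; exact ((k _).2 rfl).2⟩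

variable (Lm) in
/-- **TW-OC** -/
theorem ocStmt : OcStmt Lm := fun S S' V m R₀ i e d j N F F' u T H geo ins ins' τ k hR hσ hσ' q => by
  have r := Finset.mem_map_of_mem (Io m).f hR
  have r' := Finset.mem_map_of_mem (Io m).f' hR
  obtain ⟨_, _, _, _, _, dd⟩ := H.ds
  have A := sd_of H.hF hσ H.ok r H.np (fun _ _ _ a ha _ cm => by
    obtain ⟨a, -, rfl⟩ := Finset.mem_map.1 ha
    exact Hp13.Tw.sd_of_out cm (a.2.trans H.hV.le)) ins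
  have A' := sd_of H.hF' hσ' H.ok' r' dd.np
    (fun σ k₁ k₂ a ha z _ => (dd.out σ k₁ (k₂ r') a (k₂ ha)).resolve_left z) ins'
  have C : CH (F.job (m.ι i)) ((F.job (m.ι i)).cf (.inl ((Io m).f R₀))) (shX S {(Io m).f R₀}) (ce0 (τ.map (Io m).f)) ((Io m).f R₀) (F'.job (m.ι' i))
      ((F'.job (m.ι' i)).cf (.inl ((Io m).f' R₀))) (shX S' {(Io m).f' R₀}) (ce0 (τ.map (Io m).f'))
      ((Io m).f' R₀) fun l l' => ∃ a, (Io m).f a = l.1 ∧ (Io m).f' a = l'.1 := by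
    refine ⟨?_, fun l hl => ?_, fun l _ => ?_, ?_, ?_⟩
    · rintro ⟨_, h⟩ ⟨_, h'⟩ ⟨a, rfl, rfl⟩
      exact ⟨nb_iff.2 (subset_union_left.trans (H.hf_out h)),
        nb_iff.2 (subset_union_left.trans (dd.ls _ h'))⟩
    · obtain ⟨a, k⟩ := H.ls_l l (nb_iff.1 hl)
      exact ⟨⟨_, (H.ls_iff a).2 (k ▸ l.2)⟩, a, k, rfl⟩
    · obtain ⟨a, k, k'⟩ := H.ls_r l.2
      exact ⟨⟨_, k'⟩, a, rfl, k⟩
    · rintro _ _ _ ⟨a, k, k'⟩ ⟨b, n, n'⟩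
      exact Subtype.ext (k ▸ n ▸ congrArg _ ((Io m).f'.injective (k'.trans n'.symm)))
    · rintro _ _ _ ⟨a, k, k'⟩ ⟨b, n, n'⟩
      exact Subtype.ext (k' ▸ n' ▸ congrArg _ ((Io m).f.injective (k.trans n.symm)))
  have m1 := fa_tr H.hF H.hF' H.ok H.ok' hσ hσ' A.c1 A'.c1
  refine oc_eq A A' C (InvOn.bijOn ⟨fun _ h => tr_tr h.1.1, fun _ h => tr_tr h.1.1⟩ m1
    (fa_tr H.hF' H.hF H.ok' H.ok hσ' hσ A'.c1 A.c1)) fun s hs => ?_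
  obtain ⟨φ, ψ, U, v, G, Z⟩ := geo _ ((F'.job (m.ι' i)).cf (.inl ((Io m).f' R₀))) (A.c1.ge rfl) (by
    rw [A.c1, A'.c1, ← image_singleton (f := (Io m).f), (Io m).f.injective.preimage_image,
      image_singleton])
    _ hσ s hs.1 hs.2
  have Z := Z A.c1 ⟨τ, rfl⟩
  have kt := G.kt
  have t1 := Z.τ q
  have t2 := Z.ct
  rw [oz_eq A.c1, oz_eq A'.c1] at kt t1 t2
  have b := A.act hs
  have b' := A'.act (m1 hs)
  obtain ⟨g, w⟩ := exists_nj A.ok A'.ok b b' (A.ok.end_sub b A.pc ⟨_, rfl, hp_some.2 ⟨rfl, rfl⟩⟩)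
    (G.cy R₀) fun y t k l => G.nk R₀ ⟨b.2.2.2, b.1⟩ y t (ne_of_gt k) l fun _ => k
  refine ⟨φ, ψ, U, v, kt, t1, ?_, ?_, fun _ _ _ k _ _ => el_pl A'.ok Ink3.nd0_nil Ink3.nd0_nil b' b
    (w.symm kt.toKG) (Job.isClopen_un A'.pc).2 (inv_one (G := Circle) ▸ k.symm kt.toLG kt.inv),
    fun _ _ _ k _ _ => el_pl A.ok Ink3.nd0_nil Ink3.nd0_nil b b' w (Job.isClopen_un A.pc).2 k⟩
  · rintro ⟨_, h⟩ ⟨_, h'⟩ ⟨a, rfl, rfl⟩
    exact (t2 a h h').1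
  · rintro ⟨_, h⟩ ⟨_, h'⟩ ⟨a, rfl, rfl⟩ x x' w ζ E b b' f
    have l := C.l ⟨_, h⟩ ⟨_, h'⟩ ⟨a, rfl, rfl⟩
    exact Eqv71.PcRel0.sol ((t2 a h h').2 q) kt.toLG (A.cut hs l.1) (A'.cut (m1 hs) l.2)
      (t2 a h h').1 E f

end Crest.Agent.X212.Twn5
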