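import Crest.Agent.X212.Twn5.Defs

/-!
# Row 212, twins (helper5): the numbers outside `R` are those outside `R'`
-/

set_option autoImplicit false
set_option linter.unusedSectionVars false
noncomputable section
open scoped Manifold ContDiff Topology InnerProductSpace
open MeasureTheory Set Function Filter

namespace Crest.Agent.X212.Twn5
open An M Nd18 Mod61 Nk89 Cht98 Rdc90 G75 Ins26 Jb7 Rf65
open Nat75 (pl tr pl_f)

variable {κ lam : Type} [Fintype κ] [Fintype lam] [DecidableEq lam] {Lm : LM κ lam}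
  {S S' : Scene Lm} {D : S.Dat} {D' : S'.Dat} {i : S.L} {i' : S'.L} {Wi Wi' : Type} {r n : ℕ}
  {J : Job Wi (D.Λ i) (S.A ⊕ Unit) S.ls r n} {J' : Job Wi' (D'.Λ i') (S'.A ⊕ Unit) S'.ls r n}
  {A₀ : Type} {f : A₀ ↪ S.A} {f' : A₀ ↪ S'.A} {R₀ : A₀} {E : Finset S.A} {z : ℕ}
  {c : S.M.Cl} {c' : S'.M.Cl} {σ : Cel (S.A ⊕ Unit)} {σ' : Cel (S'.A ⊕ Unit)} {br : BR J J' f f'} {δ : ℝ}
  {a : A₀}

theorem ou_iff {R : S.A} {U} : Ou (some R) U ↔ U ⊆ (S.M.sys.w R).sd true :=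
  ⟨fun h => h R rfl, fun h _ e => by cases e; exact h⟩

theorem op_adj {R a : S.A} {ρ b} (hR : R ∈ c.1) (h : ρ ∈ Pc c) (e : ρ a = some b)
    (o : (S.M.sys.w a).band ⊆ (S.M.sys.w R).sd true) : ρ ∈ OP R c := by
  have := S.M.con
  obtain ⟨b', k⟩ := Sys.Piece.side c.2 h hR
  obtain ⟨x, hx⟩ := (S.M.sys.w a).ne b
  exact ⟨h, (S.M.sys.w R).sd_inj (k (h.adj a b e hx)) (o hx.1) ▸ k⟩

theorem rl_op {R : S.A} : Rl (some R) c ⊆ OP R c := fun _ h => ⟨h.1, ou_iff.1 h.2.1⟩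

/-- some configuration -/
def cf0 {Z ι lam : Type} [Fintype ι] [Fintype lam] {r : ℕ} : Cfg Z ι lam r := ⟨⟨0, 0, 0, 0, 0⟩, 0, 0, 0⟩

namespace GI
variable (G : GI J J' f f' z)

/-- the cuts of `S'` come from `S` -/
def bf (l : S'.ls) : S.ls := ⟨f (G.bk l l.2).choose, (G.bk l l.2).choose_spec.2⟩

theorem bf_f (h h') : G.bf ⟨f' a, h'⟩ = ⟨f a, h⟩ :=
  Subtype.ext (congrArg f (f'.injective (G.bk _ h').choose_spec.1))

include G in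
theorem all {P : S'.ls → Prop} (h : ∀ a (_ : f a ∈ S.ls) h', P ⟨f' a, h'⟩) : ∀ l, P l := fun ⟨l, k⟩ => by
  obtain ⟨a, rfl, e⟩ := G.bk l k
  exact h a e k

theorem bf_inj : Injective G.bf := G.all fun a h h' => G.all fun b k k' e => by
  rw [G.bf_f h, G.bf_f k] at e
  cases f.injective (congrArg Subtype.val e)
  rfl

include G in
theorem ls (h : f' a ∈ S'.ls) : f a ∈ S.ls := by
  obtain ⟨b, e, k⟩ := G.bk _ h
  exact f'.injective e ▸ k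

end GI

variable (G : GI J J' f f' z) (H : RG J J' f f' R₀ E z c c' σ σ')

section
include H

theorem RG.mem : f' a ∈ c'.1 ↔ f a ∈ c.1 := by
  rw [H.cc]
  exact f'.injective.mem_set_image

theorem RG.all {P : S.A → Prop} (h : ∀ a, f a ∈ cylW c → P (f a)) : ∀ a ∈ cylW c, P a := fun a k => by
  obtain ⟨a, rfl⟩ := H.cyl k
  exact h a k

include G

theorem cy : f' a ∈ cylW c' ↔ f a ∈ cylW c := and_congr H.mem (G.pin a).not

theorem all' {P : S'.A → Prop} (h : ∀ a, f a ∈ cylW c → P (f' a)) : ∀ a ∈ cylW c', P a := fun a k => by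
  obtain ⟨a, -, rfl⟩ := H.cc.le k.1
  exact h a ((cy G H).1 k)

theorem sum_cy {α : Type} [AddCommMonoid α] {T : Set S.A} {T' : Set S'.A} (h : T ⊆ cylW c)
    (h' : T' ⊆ cylW c') (e : ∀ a, f a ∈ cylW c → (f' a ∈ T' ↔ f a ∈ T)) {g : S.A → α} {g' : S'.A → α}
    (k : ∀ a, f a ∈ T → g' (f' a) = g (f a)) : ∑ᶠ a ∈ T', g' a = ∑ᶠ a ∈ T, g a := by
  have e' : T' = f' '' (f ⁻¹' T) := Subset.antisymm (fun a k => all' G H (P := fun a => a ∈ T' → _)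
    (fun a l k => ⟨a, (e a l).1 k, rfl⟩) a (h' k) k) (by rintro _ ⟨a, k, rfl⟩; exact (e a (h k)).2 k)
  rw [e', finsum_mem_image f'.injective.injOn, ← image_preimage_eq_of_subset (h.trans H.cyl),
    finsum_mem_image f.injective.injOn, image_preimage_eq_of_subset (h.trans H.cyl)]
  exact finsum_mem_congr rfl k

/-- the ends -/
def ed (u : Ed c) : Ed c' := (⟨extend f f' (fun _ => f' R₀) u.1, H.all (P := fun a =>
  extend f f' (fun _ => f' R₀) a ∈ cylW c') (fun a k => by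
    rw [f.injective.extend_apply]; exact (cy G H).2 k) _ u.1.2⟩, u.2)

theorem ed_f (h : f a ∈ cylW c) (b) : ed G H (⟨f a, h⟩, b) = (⟨f' a, (cy G H).2 h⟩, b) :=
  Prod.ext (Subtype.ext (f.injective.extend_apply f' (fun _ => f' R₀) a)) rfl

omit G in
theorem RG.alle {P : Ed c → Prop} (h : ∀ a k b, P (⟨f a, k⟩, b)) : ∀ u, P u := fun ⟨⟨a, k⟩, b⟩ => by
  obtain ⟨a, rfl⟩ := H.cyl k
  exact h a k b

theorem ed_inj : Injective (ed G H) := H.alle fun a h b => H.alle fun a' h' b' e => by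
  rw [ed_f, ed_f] at e
  cases f'.injective (congrArg (·.1.1) e)
  cases congrArg Prod.snd e
  rfl

theorem ed_p {P : Set (Reg S.A)} : ∀ u, ed G H u ∈ EdP c' (pl f' f '' P) ↔ u ∈ EdP c P :=
  H.alle fun a h b => by
    rw [ed_f]
    exact exists_mem_image.trans (exists_congr fun _ => and_congr_right fun _ => by rw [pl_f])

theorem ed_bij {P : Set (Reg S.A)} : BijOn (ed G H) (EdP c P) (EdP c' (pl f' f '' P)) :=
  ⟨fun u => (ed_p G H u).2, (ed_inj G H).injOn, fun ⟨⟨a, h⟩, b⟩ k => by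
    obtain ⟨a, -, rfl⟩ := H.cc.le h.1
    exact ⟨_, (ed_p G H _).1 ((ed_f G H ((cy G H).1 h) b).symm ▸ k), ed_f G H _ b⟩⟩

theorem rl_bij : BijOn (pl f' f) (Rl (some (f R₀)) c) (Rl (some (f' R₀)) c') := by
  have e : ∀ ρ, (∀ a ∈ cylW c', pl f' f ρ a ≠ some false) ↔ ∀ a ∈ cylW c, ρ a ≠ some false := fun ρ =>
    ⟨fun k => H.all fun a l => pl_f (f := f') (π := ρ) a ▸ k _ ((cy G H).2 l),
      fun k => all' G H fun a l => (pl_f (f := f') (π := ρ) a).symm ▸ k _ l⟩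
  refine ⟨fun ρ h => ?_, H.pc.injOn.mono rl_op, fun ρ' h => ?_⟩
  · have := H.pc.mapsTo ⟨h.1, ou_iff.1 h.2.1⟩
    exact ⟨this.1, ou_iff.2 this.2, (e ρ).2 h.2.2⟩
  · obtain ⟨ρ, k, rfl⟩ := H.pc.surjOn ⟨h.1, ou_iff.1 h.2.1⟩
    exact ⟨ρ, ⟨k.1, ou_iff.2 k.2, (e ρ).1 h.2.2⟩, rfl⟩

end

variable (L : ∀ a, f a ∈ cylW c → LI J J' f f' br a) (d0 : 0 < δ) (sp : SplAt J c δ) (sp' : SplAt J' c' δ)
  {y : J.Obc c} {y' : J'.Obc c'} (T : Tp R₀ br δ y y')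

section
include G H d0 sp sp' T

theorem num {ρ} (h : ρ ∈ OP (f R₀) c) (go : Go δ y {ρ}) : ia δ y' (pl f' f ρ) = ia δ y ρ ∧
    idr δ y' (pl f' f ρ) = idr δ y ρ ∧ y'.kap (D'.W.pc c' (pl f' f ρ)) = y.kap (D.W.pc c ρ) :=
  have k := G.nat c c' δ y ρ y' _ d0 G.ok G.ok' sp sp' h.1 (H.pc.mapsTo h).1 go (T.pc ρ h go).1
    (T.pc ρ h go).2.1
  ⟨k.1.symm, k.2.1.symm, k.2.2.1.symm⟩

omit G H d0 sp sp' in
include L in
theorem dzh (h : f a ∈ cylW c) (b) : dz (J'.xs (f' a)).D (y'.β (f' a) b) = dz (J.xs (f a)).D (y.β (f a) b) ∧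
    dh (J'.xs (f' a)).D (y'.β (f' a) b) = dh (J.xs (f a)).D (y.β (f a) b) ∧
    (Cn (J'.xs (f' a)).D (y'.β (f' a) b) ↔ Cn (J.xs (f a)).D (y.β (f a) b)) :=
  have h1 := (L a h).dz _ _ (T.β a h b)
  have h2 := (L a h).dh _ _ (T.β a h b)
  ⟨h1, h2, by rw [Rf65.Cn, h1, h2]; rfl⟩

omit G H d0 sp sp' in
include L in
theorem du_eq (h : f a ∈ cylW c) : du y' (f' a) = du y (f a) := by
  rw [du, du, (dzh L T h true).2.1, (dzh L T h true).2.2]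

include L in
theorem xs_le (hH : y'.H = G.bf ⁻¹' y.H) (hj : ∀ a, y'.j (f' a) = y.j (f a)) {P P' : Set (Reg S.A)}
    (hP : P ⊆ OP (f R₀) c) (hP' : P' ⊆ P) (go : ∀ ρ ∈ P, Go δ y {ρ}) :
    xs δ y (J.prt (shX S {f R₀}) σ c P P' y.H) ≤
      xs δ y' (J'.prt (shX S' {f' R₀}) σ' c' (pl f' f '' P) (pl f' f '' P') y'.H) := by
  have h1 : ix δ y' (pl f' f '' P) (pl f' f '' P') = ix δ y P P' := by
    rw [ix, finsum_mem_image (H.pc.injOn.mono hP), finsum_mem_image (H.pc.injOn.mono (hP'.trans hP)),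
      finsum_mem_congr rfl fun ρ h => (num G H d0 sp sp' T (hP h) (go ρ h)).1,
      finsum_mem_congr rfl fun ρ h => (num G H d0 sp sp' T (hP (hP' h)) (go ρ (hP' h))).2.1]
    rfl
  have h2 := H.lv P hP
  have ky' : ∀ u, ed G H (ky (jz y) u) = ky (jz y') (ed G H u) := H.alle fun a h b => by
    have : f' a ∈ jz y' ↔ f a ∈ jz y := and_congr (cy G H) (by rw [hj])
    rw [ed_f, ky, ky]
    by_cases k : f a ∈ jz y
    · rw [if_pos k, if_pos (this.2 k), ed_f]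
    · rw [if_neg k, if_neg (mt this.1 k), ed_f]
  have cz' : ∀ u, ed G H u ∈ cz y' → u ∈ cz y := H.alle fun a h b k => by
    rw [ed_f] at k
    exact (dzh L T h b).2.2.1 k
  have h3 : Fintype.card (UU P (cz y) (jz y)) ≤ Fintype.card (UU (pl f' f '' P) (cz y') (jz y')) :=
    Fintype.card_le_of_injective (fun u => ⟨ed G H u.1, let ⟨v, k1, k2, k3⟩ := u.2
      ⟨ed G H v, (ed_p G H v).2 k1, mt (cz' v) k2, k3 ▸ (ky' v).symm⟩⟩)
      fun _ _ e => Subtype.ext (ed_inj G H (congrArg Subtype.val e))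
  have h4 : (J'.cs (pl f' f '' P) y'.H).ncard ≤ (J.cs P y.H).ncard :=
    ncard_le_ncard_of_injOn G.bf (G.all fun a h h' k => ⟨(hH.le k.1 :), G.bf_f h h' ▸ H.cs P hP a h h' k.2⟩)
      G.bf_inj.injOn
  have h5 : stb y' (pl f' f '' P) = stb y P := (finsum_mem_eq_of_bijOn _ (ed_bij G H) (H.alle
    (P := fun u => _ → dz (J.xs u.1).D (y.β u.1 u.2) =
      dz (J'.xs (ed G H u).1).D (y'.β (ed G H u).1 (ed G H u).2)) fun a h b _ => by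
    rw [ed_f]
    exact (dzh L T h b).1.symm)).symm
  simp only [xs, Job.prt, h1, h5, ← Nat.card_eq_fintype_card] at h3 ⊢
  omega

end

theorem drp_eq (hH : y'.H = G.bf ⁻¹' y.H) (h : f a ∈ S.ls → f' a ∈ S'.ls) : drp y' (f' a) = drp y (f a) := by
  classical
  rw [drp, drp, hH]
  refine if_congr ⟨fun ⟨k, e⟩ => ⟨G.ls k, G.bf_f _ k ▸ e⟩, fun ⟨k, e⟩ => ⟨h k, ?_⟩⟩ rfl rfl
  rwa [mem_preimage, G.bf_f k]

theorem ex_lim (L : ∀ a, f a ∈ cylW c → LI J J' f f' br a) (γ : ∀ a, YC (J.xs a).Y.M κ (lam ⊕ lam)) :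
    ∃ γ' : ∀ a, YC (J'.xs a).Y.M κ (lam ⊕ lam), ∀ a, f a ∈ cylW c → br a (γ (f a)) (γ' (f' a)) := by
  have : ∀ a', ∃ g : YC (J'.xs a').Y.M κ (lam ⊕ lam), ∀ a, f a ∈ cylW c → ∀ g',
      (⟨f' a, g'⟩ : Σ a, YC (J'.xs a).Y.M κ (lam ⊕ lam)) = ⟨a', g⟩ → br a (γ (f a)) g' := fun a' => by
    by_cases k : ∃ a, f' a = a' ∧ f a ∈ cylW c
    · obtain ⟨a, rfl, h⟩ := k
      obtain ⟨g, hg⟩ := (L a h).tot (γ (f a))
      refine ⟨g, fun b _ g' e => ?_⟩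
      cases f'.injective (congrArg Sigma.fst e)
      cases e
      exact hg
    · exact ⟨cf0, fun a h _ e => (k ⟨a, congrArg Sigma.fst e, h⟩).elim⟩
  choose γ' h using this
  exact ⟨γ', fun a k => h _ a k _ rfl⟩

include L in
/-- all objects are transported, with their cuts and chains -/
theorem ex_tp (y : J.Obc c) (h : Adm0 y.x.con (J.B c) (J.G c y.s) → ∃ y' : J'.Obc c', Tp R₀ br δ y y') :
    ∃ y' : J'.Obc c', Tp R₀ br δ y y' ∧ y'.H = G.bf ⁻¹' y.H ∧ ∀ a, y'.j (f' a) = y.j (f a) := by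
  obtain ⟨w, T⟩ : ∃ y' : J'.Obc c', Tp R₀ br δ y y' := by
    by_cases k : Adm0 y.x.con (J.B c) (J.G c y.s)
    · exact h k
    choose γ hγ using fun b => ex_lim L fun a => y.β a b
    exact ⟨⟨tr f f' y.s, cf0, ∅, fun _ => 0, fun a b => γ b a, 1, 0, 0, 0⟩, rfl, fun a h b => hγ b a h,
      fun _ _ g => (k g.adm).elim⟩
  refine ⟨{ w with H := G.bf ⁻¹' y.H, j := extend f' (fun a => y.j (f a)) 0 }, ⟨T.s, T.β, fun ρ h g => ?_⟩,
    rfl, f'.injective.extend_apply (fun a => y.j (f a)) 0⟩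
  obtain ⟨k1, k2, k3, k4, k5⟩ := T.pc ρ h g
  exact ⟨⟨k1.br, k1.O, k1.adm, k1.bs, k1.lim, k1.int⟩, k2, k3, fun ε e => ⟨(k4 ε e).int, (k4 ε e).le⟩, k5⟩

variable (hR : f R₀ ∈ c.1) (O : ∀ y : J.Obc c, y.s ∈ Job.cl σ → Sys.inf (J.Θ y.s).2 = c.1 →
  ∃ y' : J'.Obc c', Tp R₀ br δ y y' ∧ y'.H = G.bf ⁻¹' y.H ∧ ∀ a, y'.j (f' a) = y.j (f a))
include H L d0 sp sp' hR O

/-- **the core** -/
theorem kc {ε K₀ : ℝ} {j : ℕ} (K : KcAt J' c' δ ε K₀ (shX S' {f' R₀}) σ' (some (f' R₀)) j J'.k) :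
    KcAt J c δ ε K₀ (shX S {f R₀}) σ (some (f R₀)) j (J.k - z / 4) := by
  intro y F u lo g p
  obtain ⟨y', T, hH, hj⟩ := O y p.cell p.inf
  have : ∀ a, ∃ w : J'.Obc c', (u.z (f a)).s = y.s → Tp R₀ br δ (u.z (f a)) w := fun a => by
    by_cases k : (u.z (f a)).s = y.s
    · exact (O _ (k ▸ p.cell) (k ▸ p.inf)).imp fun _ h _ => h.1
    · exact ⟨y', fun e => (k e).elim⟩
  choose w hw using this
  obtain ⟨u', u1, u2, u3⟩ : ∃ u' : Fls J' c', (∀ a, u'.ι (f' a) = pl f' f (u.ι (f a))) ∧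
      (∀ a, u'.z (f' a) = w a) ∧ ∀ a, u'.e (f' a) = u.e (f a) :=
    ⟨⟨extend f' (fun a => pl f' f (u.ι (f a))) fun _ => top _, extend f' w fun _ => y',
      extend f' (fun a => u.e (f a)) 0⟩, f'.injective.extend_apply (fun a => pl f' f (u.ι (f a))) fun _ => top _,
      f'.injective.extend_apply w fun _ => y', f'.injective.extend_apply (fun a => u.e (f a)) 0⟩
  have rl := rl_bij G H
  have ne : ∀ {a}, f' a ∈ some (f' R₀) ↔ f a ∈ some (f R₀) := by simp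
  have ls : ∀ {a}, f a ∈ cylW c → (f' a ∈ S'.ls ↔ f a ∈ S.ls) := fun h => ⟨G.ls, H.lsc _ h⟩
  have dr : ∀ {a}, f a ∈ cylW c → drp y' (f' a) = drp y (f a) := fun h => drp_eq G hH (H.lsc _ h)
  have op : ∀ {a}, f a ∈ cylW c → f a ∉ some (f R₀) → u.ι (f a) ∈ OP (f R₀) c := fun h k =>
    op_adj hR (p.fil _ h k).1 (p.fil _ h k).2.1 (H.out _ h fun e => k (congrArg some e.symm))
  have nu := fun {a} h k => num G H d0 sp sp' (hw a (p.fil _ h k).2.2.2.1.s) (op h k) (p.fil _ h k).2.2.2.1.go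
  have nr := fun {ρ} h => num G H d0 sp sp' T (rl_op h) (p.go ρ h)
  have p' : Pre δ ε K₀ (shX S' {f' R₀}) σ' (some (f' R₀)) J'.k y' (pl f' f '' F) u' lo g := by
    refine ⟨T.s ▸ (H.cell _ p.cell p.inf).1, T.s ▸ (H.cell _ p.cell p.inf).2,
      fun _ e => by cases e; exact (cy G H).2 (p.hR _ rfl), all' G H fun a h => all' G H fun b k e =>
        H.nn a b (p.nn _ h _ k fun e' => e (congrArg f' (f.injective e'))),
      (image_mono p.sub).trans rl.image_eq.le, rl.image_eq ▸ forall_mem_image.2 fun ρ h =>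
        (T.pc ρ (rl_op h) (p.go ρ h)).1, rl.image_eq ▸ forall_mem_image.2 fun ρ h k => ?_,
      all' G H fun a h k => ?_, ?_, le_trans ?_ p.drop⟩
    · have t := T.pc ρ (rl_op h) (p.go ρ h)
      rw [(nr h).2.2]
      refine (p.tri ρ h fun e => k ⟨ρ, e, rfl⟩).imp (fun e => ⟨t.2.2.1 e.1, t.2.2.2.1 _ e.2.1, e.2.2⟩)
        (Or.imp_right fun e => ⟨e.1, e.2.trans ?_⟩)
      simpa only [image_singleton, image_empty] using xs_le G H L d0 sp sp' T hH hj (P := {ρ}) (P' := ∅)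
        (singleton_subset_iff.2 (rl_op h)) (empty_subset _) fun _ e => e ▸ p.go ρ h
    · have k := mt ne.2 k
      obtain ⟨-, q2, q3, q4, q5⟩ := p.fil _ h k
      have t := (hw a q4.s).pc _ (op h k) q4.go
      rw [u1, u2, u3, pl_f, (nu h k).1, du_eq L T h, dr h, if_congr (ls h) rfl rfl]
      exact ⟨(H.pc.mapsTo (op h k)).1, q2, fun l hl e => by
        obtain ⟨b, rfl, hb⟩ := G.bk l hl
        exact q3 _ hb (H.inn _ (op h k) b e), ⟨by rw [(hw a q4.s).s, T.s, q4.s], t.1, t.2.2.1 q4.ta,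
          t.2.2.2.1 _ q4.ea, t.2.2.2.2 q4.un, (nu h k).2.2 ▸ q4.pos,
          (L a h).eqv _ _ _ _ (T.β a h true) ((hw a q4.s).β a h false) q4.eqv⟩, q5⟩
    · rw [G.k, ← p.lev, ← finsum_mem_eq_of_bijOn _ rl fun ρ h => (nr h).2.2.symm,
        sum_cy G H (T := {a ∈ cylW c | a ∉ some (f R₀)}) (sep_subset _ _) (sep_subset _ _)
          (g := fun a => (u.z a).kap (D.W.pc c (u.ι a)) + u.e a) (fun a h => and_congr (cy G H) ne.not)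
          fun a h => by rw [u1, u2, u3, (nu h.1 h.2).2.2]]
    · exact ncard_le_ncard_of_injOn G.bf (G.all fun a h h' k => G.bf_f h h' ▸
        have := H.unc a h h' k.1 (ou_iff.1 k.2.2)
        ⟨this.1, fun e => k.2.1 (hH.ge (by rwa [mem_preimage, G.bf_f h])), ou_iff.2 this.2⟩) G.bf_inj.injOn
  have h1 := xs_le G H L d0 sp sp' T hH hj (p.sub.trans rl_op) subset_rfl fun ρ h => p.go ρ (p.sub h)
  have h2 : ∑ᶠ a ∈ {a ∈ cylW c' | ∃ ρ ∈ pl f' f '' F, ρ a = some true}, cost δ (some (f' R₀)) y' u' a =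
      ∑ᶠ a ∈ {a ∈ cylW c | ∃ ρ ∈ F, ρ a = some true}, cost δ (some (f R₀)) y u a :=
    sum_cy G H (sep_subset _ _) (sep_subset _ _) (fun a h => and_congr (cy G H)
      (exists_mem_image.trans (exists_congr fun _ => and_congr_right fun _ => by rw [pl_f]))) fun a h => by
      rw [cost, cost, du_eq L T h.1]
      by_cases k : f a ∈ some (f R₀)
      · rw [if_pos k, if_pos (ne.2 k)]
      · rw [if_neg k, if_neg (mt ne.1 k), u1, u2, u3, (nu h.1 k).1, (nu h.1 k).2.1, dr h.1,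
          if_congr (ls h.1) rfl rfl]
  have h3 : ∑ᶠ a ∈ cylW c', (drp y' a : ℝ) = ∑ᶠ a ∈ cylW c, (drp y a : ℝ) :=
    sum_cy G H subset_rfl subset_rfl (fun _ _ => cy G H) fun a h => by rw [dr h]
  have K := K y' _ u' lo g p'
  have h1 := (Int.cast_le (R := ℝ)).2 h1
  simp only [h2, h3] at K ⊢
  push_cast at K ⊢
  refine K.imp (fun k => by linarith) fun k => ⟨fun a h e o => ?_, fun ρ h => ?_, by linarith [k.2.2]⟩
  · obtain ⟨a, rfl⟩ := H.pn a h e (ou_iff.1 o)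
    exact k.1 _ (H.mem.2 h) ((G.pin a).2 e) (ou_iff.2 (H.nn _ _ (ou_iff.1 o)))
  · obtain ⟨ρ', e, e'⟩ := k.2.1 (rl.mapsTo h)
    exact rl.injOn (p.sub e) h e' ▸ e

/-- **additivity** -/
theorem ado (hσ' : σ' ∈ J'.𝒦) (K : AdO J' c' δ (f' R₀) ∅ 0 0) {s} (hs : s ∈ Job.cl σ)
    (hi : Sys.inf (J.Θ s).2 = c.1) (c₀ : S.M.Cl) (π₀) (h₀ : c₀.1 = {a ∈ c.1 | S.M.pin a})
    (hp : S.M.sys.Piece c₀.1 π₀) (hn : f R₀ ∈ S.M.sys.inn π₀) (β sg l2)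
    (nb : S.Nb i (S.M.sys.U π₀) β sg l2) (y : Reg S.A → J.Obc c) (γ : ∀ a, YC (J.xs a).Y.M κ (lam ⊕ lam)) :
    let P := {ρ | S.In c π₀ ρ ∧ Ou (some (f R₀)) (S.M.sys.U ρ)}
    (∀ ρ ∈ P, (y ρ).s = s ∧ Go δ (y ρ) {ρ} ∧ ∀ a ∈ cylW c, ∀ b, ρ a = some b →
      Bs (J.xs a).D (γ a) ∧ (J.xs a).D.Eqv (γ a) ((y ρ).β a b)) →
    let k := ∑ᶠ ρ ∈ P, (y ρ).kap (D.W.pc c ρ)
    (∑ᶠ ρ ∈ P, (ia δ (y ρ) ρ : ℝ)) = 8 * k - 3 * (β - (1 : ℕ)) +
      ∑ᶠ a ∈ cylW c ∩ S.M.sys.inn π₀, ((dz (J.xs a).D (γ a) : ℝ) - dh (J.xs a).D (γ a)) ∧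
    (∑ᶠ ρ ∈ P, (idr δ (y ρ) ρ : ℝ)) = -2 * k + (l2 - sg - zc c E z) / 2 ∧
    ∃ m : ℤ, k = (l2 - sg - zc c E z) / 4 + m := by
  intro P hy
  obtain ⟨c₀', π₀', β', sg', l2', q1, q2, q3, q4, rfl, q6, q7, q8⟩ := H.rel c₀ π₀ h₀ hp hn β sg l2 nb
  have op : P ⊆ OP (f R₀) c := fun ρ h => ⟨h.1.1, ou_iff.1 h.2⟩
  have bj : BijOn (pl f' f) P {ρ | S'.In c' π₀' ρ ∧ Ou (some (f' R₀)) (S'.M.sys.U ρ)} := by
    refine ⟨fun ρ h => ?_, H.pc.injOn.mono op, fun ρ' h => ?_⟩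
    · have := H.pc.mapsTo (op h)
      exact ⟨⟨this.1, (q7 ρ (op h)).2 h.1.2⟩, ou_iff.2 this.2⟩
    · obtain ⟨ρ, k, rfl⟩ := H.pc.surjOn ⟨h.1.1, ou_iff.1 h.2⟩
      exact ⟨ρ, ⟨⟨k.1, (q7 ρ k).1 h.1.2⟩, ou_iff.2 k.2⟩, rfl⟩
  obtain ⟨γ', hγ⟩ := ex_lim L γ
  have : ∀ ρ', ∃ w : J'.Obc c', ∀ ρ ∈ P, pl f' f ρ = ρ' → Tp R₀ br δ (y ρ) w := fun ρ' => by
    by_cases k : ∃ ρ ∈ P, pl f' f ρ = ρ'
    · obtain ⟨ρ, h, rfl⟩ := k
      obtain ⟨w, T, -⟩ := O (y ρ) ((hy ρ h).1 ▸ hs) ((hy ρ h).1 ▸ hi)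
      exact ⟨w, fun ρ₁ h₁ e => bj.injOn h₁ h e ▸ T⟩
    · exact ⟨⟨0, cf0, ∅, fun _ => 0, fun _ _ => cf0, 1, 0, 0, 0⟩, fun ρ h e => (k ⟨ρ, h, e⟩).elim⟩
  choose w hw using this
  have T := fun ρ h => hw _ ρ h rfl
  have nu := fun ρ h => num G H d0 sp sp' (T ρ h) (op h) (hy ρ h).2.1
  have K := K σ' hσ' _ (H.cell s hs hi).1 (H.cell s hs hi).2 c₀' π₀' q1 q2 q3 β' sg' l2' q4 w γ'
    (bj.image_eq ▸ forall_mem_image.2 fun ρ h => ⟨(hy ρ h).1 ▸ (T ρ h).s, ((T ρ h).pc ρ (op h) (hy ρ h).2.1).1,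
      all' G H fun a k b e =>
        have q := (hy ρ h).2.2 _ k b ((pl_f (f := f') a).symm.trans e)
        ⟨(L a k).bs _ _ (hγ a k) q.1, (L a k).eqv _ _ _ _ (hγ a k) ((T ρ h).β a k b) q.2⟩⟩)
  have e1 := finsum_mem_eq_of_bijOn (g := fun ρ => (w ρ).kap (D'.W.pc c' ρ)) _ bj fun ρ h => (nu ρ h).2.2.symm
  have e2 := finsum_mem_eq_of_bijOn (g := fun ρ => (ia δ (w ρ) ρ : ℝ)) _ bj
    fun ρ h => congrArg Int.cast (nu ρ h).1.symm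
  have e3 := finsum_mem_eq_of_bijOn (g := fun ρ => (idr δ (w ρ) ρ : ℝ)) _ bj
    fun ρ h => congrArg Int.cast (nu ρ h).2.1.symm
  have e4 := sum_cy G H inter_subset_left inter_subset_left (fun a h => and_congr (cy G H) (q8 a h))
    (g := fun a => (dz (J.xs a).D (γ a) : ℝ) - dh (J.xs a).D (γ a))
    (g' := fun a => (dz (J'.xs a).D (γ' a) : ℝ) - dh (J'.xs a).D (γ' a))
    fun a h => by rw [(L a h.1).dz _ _ (hγ a h.1), (L a h.1).dh _ _ (hγ a h.1)]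
  simp only [← e1, ← e2, ← e3, e4, Rf65.zc] at K
  simpa [q6] using K

omit H L d0 sp sp' hR O

include G in
/-- **TW-NUM** -/
theorem twn (reg : RegI J J' f f' R₀ E z) (obj : ObjI J J' f f' R₀ E z) (j : ℕ) :
    TwN J (f R₀) E z j J' (f' R₀) := by
  intro c hR
  by_cases k : ∃ σ ∈ J.𝒦, ∃ s ∈ Job.cl σ, Sys.inf (J.Θ s).2 = c.1
  swap
  · obtain ⟨σ', h'⟩ := G.ne
    exact ⟨⟨{f' R₀}, pairwise_singleton _ _⟩, rfl, fun a h => .inl h.1, fun δ _ _ _ _ =>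
      ⟨fun _ σ h s hs e => (k ⟨σ, h, s, hs, e⟩).elim, fun σ h => ⟨σ', h', fun _ _ _ y _ _ _ _ p =>
        (k ⟨σ, h, _, p.cell, p.inf⟩).elim⟩⟩⟩
  obtain ⟨σ₀, h₀, s₀, hs₀, e₀⟩ := k
  obtain ⟨c', σ₀', h₀', H₀⟩ := reg c hR σ₀ h₀ s₀ hs₀ e₀
  obtain ⟨br, L, O⟩ := obj c c' hR H₀.cc
  have reg' : ∀ σ ∈ J.𝒦, ∀ s ∈ Job.cl σ, Sys.inf (J.Θ s).2 = c.1 →
      ∃ σ' ∈ J'.𝒦, RG J J' f f' R₀ E z c c' σ σ' := fun σ h s hs e => by
    obtain ⟨c'', σ', h', H⟩ := reg c hR σ h s hs e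
    cases Subtype.ext (H.cc.trans H₀.cc.symm)
    exact ⟨σ', h', H⟩
  refine ⟨c', H₀.mem.2 hR, H₀.ls, fun δ d0 sp sp' df => ⟨fun K σ h s hs e => ?_, fun σ h => ?_⟩⟩
  · obtain ⟨σ', h', H⟩ := reg' σ h s hs e
    exact ado G H L d0 sp sp' hR (fun y a b => ex_tp G L y (O δ d0 df σ h σ' h' H y a b)) h' K hs e
  by_cases k : ∃ s ∈ Job.cl σ, Sys.inf (J.Θ s).2 = c.1
  · obtain ⟨s, hs, e⟩ := k
    obtain ⟨σ', h', H⟩ := reg' σ h s hs e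
    exact ⟨σ', h', fun _ _ =>
      kc G H L d0 sp sp' hR fun y a b => ex_tp G L y (O δ d0 df σ h σ' h' H y a b)⟩
  · exact ⟨σ₀', h₀', fun _ _ _ y _ _ _ _ p => (k ⟨_, p.cell, p.inf⟩).elim⟩

end Crest.Agent.X212.Twn5
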