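import Crest.Agent.X212.Twn5.Psh

/-!
# Row 212, twins (helper5): inverse and conjugation along an isometry of clopen sets
-/

set_option autoImplicit false
set_option linter.unusedSectionVars false
noncomputable section
open scoped Manifold ContDiff Topology InnerProductSpace
open MeasureTheory Set Function Filter

namespace Crest.Agent.X212.Twn5
open An Eqv71 Sob92 Wz78 Mp86
open Cnt93 (eqv_symm eqv_trans eqv_iff γ_mem)

variable {E : Type} [NormedAddCommGroup E] [NormedSpace ℝ E] [FiniteDimensional ℝ E]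
  [MeasurableSpace E] [BorelSpace E]
  {HM : Type} [TopologicalSpace HM] {I : ModelWithCorners ℝ E HM} [I.Boundaryless]
  {M : Type} [TopologicalSpace M] [ChartedSpace HM M] [IsManifold I ∞ M]
  [MeasurableSpace M] [BorelSpace M] [T2Space M] [SecondCountableTopology M]
  {ι : Type} [Fintype ι] {lam : Type} [Fintype lam]
  {E' : Type} [NormedAddCommGroup E'] [NormedSpace ℝ E'] [FiniteDimensional ℝ E']
  [MeasurableSpace E'] [BorelSpace E']
  {HM' : Type} [TopologicalSpace HM'] {I' : ModelWithCorners ℝ E' HM'} [I'.Boundaryless]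
  {M' : Type} [TopologicalSpace M'] [ChartedSpace HM' M'] [IsManifold I' ∞ M']
  [MeasurableSpace M'] [BorelSpace M'] [T2Space M'] [SecondCountableTopology M']
  {ι' : Type} [Fintype ι'] {lam' : Type} [Fintype lam']
  {B : Base M ι lam} {G : Geo I M ι lam} {B' : Base M' ι' lam'} {G' : Geo I' M' ι' lam'}
  {O : Set M} {O' : Set M'} {φ φ₁ : M → M'} {ψ : M' → M}
  {U U₁ : M → ι' → ι → ℝ} {v v₁ : M → CL (Eu lam) (Eu lam')} {r n : ℕ}
  {c d : Cfg M ι lam r} {c' d' : Cfg M' ι' lam' r} {ζ ξ θ : Circle}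
  {k : Cut M lam} {k' : Cut M' lam'}

theorem ceq_on {F : Fr I M ι} {u : M → CL c.m.V c'.m.V} (e : CEq F c c' O φ U v u ζ)
    (h : ∀ x ∈ O, φ₁ x = φ x ∧ U₁ x = U x ∧ v₁ x = v x) : CEq F c c' O φ₁ U₁ v₁ u ζ :=
  ⟨⟨e.m.su, e.m.uu, fun x hx => (h x hx).1 ▸ e.m.uu' x hx, e.m.J,
    fun x hx => (h x hx).1 ▸ (h x hx).2.1 ▸ e.m.ρ x hx,
    fun x hx => (h x hx).1 ▸ (h x hx).2.2 ▸ e.m.j x hx⟩,
    fun x hx => (h x hx).1 ▸ (h x hx).2.1 ▸ e.W x hx, fun x hx => (h x hx).1 ▸ e.Φ x hx, e.z⟩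

theorem eqv_on {m : Md M ι lam} {m' : Md M' ι' lam'} {u u₁ : M → CL m.V m'.V} {a : k.H B m}
    {a' : k'.H B' m'} (h : k.Eqv k' B B' u a a') (e : u₁ k.x0 = u k.x0) : k.Eqv k' B B' u₁ a a' :=
  h.imp fun _ h => e ▸ h

variable (g : KG B G B' G' O O' φ ψ U v)
include g

theorem cr_ss {u : M' → CL c'.m.V c.m.V} (e : CR0 B' G' B G O' O ψ (fun y a b => U (ψ y) b a)
    (fun y => trn (v (ψ y))) c' c u ζ) :
    CR0 B G B' G' O O' φ U v c c' (fun x => trn (u (φ x))) ζ⁻¹ :=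
  have l := e.symm g.symm.toLG g.symm.inv
  ⟨l.adm, l.adm', l.off, l.off', ceq_symm_symm g.inv l.e⟩

theorem prel0_symm {τ : Pt M ι lam r n} {τ' : Pt M' ι' lam' r n}
    (p : PRel0 B G B' G' O O' φ U v τ τ') (q : PNat0 B G O τ) : PRel0 B' G' B G O' O ψ
      (fun y a b => U (ψ y) b a) (fun y => trn (v (ψ y))) τ' τ := by
  have i := g.inv
  refine ⟨fun {c' c u ζ} k y hy => ?_, fun {c' c u ζ} k y hy => ?_, fun {c' c u ζ} k j => ?_⟩
  · obtain ⟨x, hx, rfl⟩ := i.surj hy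
    have m := me_of_meq k.e.m hy
    have h1 : ∀ a, u (φ x) (trn (u (φ x)) a) = c.m.p (ψ (φ x)) a := fun a =>
      congrArg (fun T : En _ => T a) m.uu'
    have h2 := q.D (cr0_refl g.hB g.hG g.rot.opn k.adm' k.off') x hx
    rw [Circle.coe_one, cs_one] at h2
    rw [p.D (cr_ss g k) x hx, ← m.cs, cs_mul k.adm'.ok.Jsq, h1, i.linv x hx, ← h2]
    simp
  · obtain ⟨x, hx, rfl⟩ := i.surj hy
    have m := me_of_meq k.e.m hy
    have h2 := q.C (cr0_refl g.hB g.hG g.rot.opn k.adm' k.off') x hx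
    rw [p.C (cr_ss g k) x hx, ridx_ridx, i.linv x hx]
    refine h2.trans ?_
    simp only [sq2_mul (fun a b => U x b a) (U x), (g.be x hx).UU]
    exact ridx_congr _ fun s => by
      rw [ContinuousLinearMap.comp_apply, cj_cj, m.uu', i.linv x hx]
  · rw [p.S (cr_ss g k) j, ← mul_assoc]; simp

theorem rel_symm (R : k.Rel k' O φ v) : k'.Rel k O' ψ fun y => trn (v (ψ y)) := by
  have f : ∀ {a : M → ℝ} {a' : M' → ℝ}, EqOn (a' ∘ φ) a O → EqOn (a ∘ ψ) a' O' :=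
    fun e y hy => (e (g.inv.maps' hy)).symm.trans (congrArg _ (g.inv.rinv y hy))
  refine ⟨?_, fun θ s => by rw [R.γ, g.inv.linv _ (γ_mem R θ s)],
    (R.w.flip).imp fun _ _ e => ⟨f e.1, f e.2.1, f e.2.2⟩,
    (R.e.flip).imp fun _ _ e => ⟨fun y hy => ?_, f e.2.1, f e.2.2⟩⟩
  · rintro _ ⟨z, rfl⟩
    exact (R.γ z.1 z.2).symm.subst (motive := (· ∈ O')) (g.inv.maps (γ_mem R z.1 z.2))
  have k := e.1 (ψ y) (g.inv.maps' hy)
  have b := g.be (ψ y) (g.inv.maps' hy)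
  rw [g.inv.rinv y hy] at k
  rw [k, trn_trn, ← ContinuousLinearMap.comp_apply (trn _), b.vv, ← ContinuousLinearMap.comp_apply,
    b.vl g.hB]

theorem eqv_sy (R : k.Rel k' O φ v) {u : M → CL c.m.V c'.m.V}
    (e : CR0 B G B' G' O O' φ U v c c' u ζ) {a : k.H B c.m} {a' : k'.H B' c'.m}
    (h : k.Eqv k' B B' u a a') : k'.Eqv k B' B (fun y => trn (u (ψ y))) a' a :=
  eqv_symm (g.toLG.of_ceq e.adm e.adm' e.e) R (g.inv.linv _ (γ_mem R 0 0)) h

theorem eqv_ss (R : k.Rel k' O φ v) {u : M' → CL c'.m.V c.m.V}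
    (e : CR0 B' G' B G O' O ψ (fun y a b => U (ψ y) b a) (fun y => trn (v (ψ y))) c' c u ζ)
    {a : k.H B c.m} {a' : k'.H B' c'.m} (h : k'.Eqv k B' B u a' a) :
    k.Eqv k' B B' (fun x => trn (u (φ x))) a a' := eqv_sy g.symm (rel_symm g R) e h

theorem int_rel {f : M → ℝ} {f' : M' → ℝ} (h : ∀ x ∈ O, f' (φ x) = f x)
    (i : IntegrableOn f O G.F.μ) : IntegrableOn f' O' G'.F.μ := by
  have m := g.inv.opn'.measurableSet
  rw [IntegrableOn, ← g.symm.μ] at i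
  exact IntegrableOn.congr_fun (i.comp_aemeasurable (ContinuousOn.aemeasurable
    (fun y hy => (g.inv.sψ y hy).continuousAt.continuousWithinAt) m))
    (fun y hy => (h _ (g.inv.maps' hy)).symm.trans (congrArg _ (g.inv.rinv y hy))) m

variable {u : M → CL c.m.V c'.m.V} {w : M → CL d.m.V d'.m.V} {a : M' → CL c'.m.V d'.m.V}
  (e : CR0 B G B' G' O O' φ U v c c' u ζ) (f : CR0 B G B' G' O O' φ U v d d' w ξ)
  (H : CEq G'.F c' d' O' id (fun x b a => B'.P b a x) B'.l a θ)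
include e f H

theorem ceq_cj : CEq G.F c d O id (fun x b a => B.P b a x) B.l
    (fun x => trn (w (ψ (φ x))) ∘L a (φ x) ∘L u x) (ξ⁻¹ * (θ * ζ)) := by
  have l' := lg_refl g.hB' g.hG' g.inv.opn'
  refine ceq_on (ceq_trans (g.toLG.trans l' g.inv.maps) g.symm.toLG g.inv.maps e.adm f.adm' f.adm
    (ceq_trans g.toLG l' g.inv.maps e.adm e.adm' f.adm' e.e H)
    (ceq_symm g.toLG g.inv f.adm f.adm' f.e)) fun x hx => ⟨(g.inv.linv x hx).symm, ?_, ?_⟩
  · funext d a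
    simp only [comp_apply, id, g.inv.linv x hx, (g.be x hx).PU g.hB', (g.be x hx).UU]
  · simp only [comp_apply, id, g.inv.linv x hx, (g.be x hx).lv g.hB, (g.be x hx).vv]

theorem eqv_cj (R : k.Rel k' O φ v) {s : k.H B c.m} {s' : k'.H B' c'.m} {t : k.H B d.m}
    {t' : k'.H B' d'.m} (e' : k.Eqv k' B B' u s s') (f' : k.Eqv k' B B' w t t')
    (H' : k'.Eqv k' B' B' a s' t') :
    k.Eqv k B B (fun x => trn (w (ψ (φ x))) ∘L a (φ x) ∘L u x) s t := by
  have x0 : k'.x0 = φ k.x0 := R.γ 0 0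
  have x1 : k'.x0 ∈ O' := x0 ▸ g.inv.maps (γ_mem R 0 0)
  have a1 := eqv_trans x0 (H.m.J k'.x0 x1) f.adm'.ok.Jsq e' H'
  have a2 := eqv_sy g R f f'
  have a3 := eqv_trans (φ := φ) x0 ((ceq_symm g.toLG g.inv f.adm f.adm' f.e).m.J k'.x0 x1)
    f.adm.ok.Jsq a1 a2
  exact a3

end Crest.Agent.X212.Twn5
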