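import Crest.Agent.X212.Twn5.Og
import Crest.Agent.X212.Rf65.Ps
import Crest.Agent.X212.Mp86.St

/-!
# Row 212, twins (helper5): the solutions outside a wall correspond (two jobs)
-/

set_option autoImplicit false
set_option linter.unusedSectionVars false
noncomputable section
open scoped Manifold ContDiff Topology InnerProductSpace
open MeasureTheory Set Function Filter

namespace Crest.Agent.X212.Twn5
open An M Nd18 Rf65 Eqv71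
open An.Job (SolOn)
open Mp86.St (hp_some piece_hp eq_hp)
open Tmp64 (AdmOn)

variable {Wi : Type} {X : Mf 4} {A κ lam : Type} [Fintype A] [Fintype κ] [Fintype lam]
  [DecidableEq lam] {M : Mark X A κ} {W : World M} {N : ML M lam} {Λ : Lns W N}
  {A' h : Type} [Fintype A'] [DecidableEq A'] [Fintype h] {r n : ℕ}
  {Wi₂ : Type} {X₂ : Mf 4} {A₂ : Type} [Fintype A₂] {M₂ : Mark X₂ A₂ κ} {W₂ : World M₂}
  {N₂ : ML M₂ lam} {Λ₂ : Lns W₂ N₂} {A₃ h₂ : Type} [Fintype A₃] [DecidableEq A₃] [Fintype h₂]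

section one
variable (J : Job Wi Λ A' h r n) (c : M.Cl) (sh : Set A') (σ : Cel A') (R : A)

/-- the parameters of the face -/
def Fa : Set (A' → ℝ) := {s | s ∈ Job.cl σ ∧ Sys.inf (J.Θ s).2 = c.1}

/-- one side -/
structure Sd : Prop where
  ok : J.OK
  mem : σ ∈ J.𝒦
  c1 : c.1 = {R}
  np : ¬M.pin R
  se : ∀ s ∈ Fa J c σ, ∀ s' ∈ Fa J c σ, (∀ a ∈ J.lv sh σ c {hp R true}, s a = s' a) → s = s'
  ins : ∀ s ∈ Fa J c σ, ∃ x : Cfg (W.Z c).M (Option κ) (lam ⊕ lam) 0,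
    AdmOn x (J.B c) (J.G c s) (W.un c {hp R true})ᶜ

/-- a critical limit at the end -/
def EL (s : A' → ℝ) (x : Cfg (W.Z c).M (Option κ) (lam ⊕ lam) r) (ζ : Circle)
    (β : YC (J.xs R).Y.M κ (lam ⊕ lam)) : Prop := (J.xs R).N.Crit (J.xs R).D β ∧
  ∀ ha : Act J.m c R (some true) (J.Θ s), (J.K c R _ _ ha).Lim x β ζ atBot

variable {J c sh σ R} (S : Sd J c sh σ R)
include S

theorem Sd.pc : ∀ π ∈ ({hp R true} : Set (Reg A)), M.sys.Piece c.1 π :=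
  fun _ k => k ▸ S.c1 ▸ piece_hp true

theorem Sd.cut {s : A' → ℝ} (hs : s ∈ Fa J c σ) {i : h} (hi : i ∈ (pO J c sh σ R).H) :
    (J.cut c i).OK (J.B c) (J.G c s).F :=
  S.ok.ct σ S.mem _ (J.cl_dom hs.1) c hs.2 i (Job.unc_of S.pc hi.2)

theorem Sd.refl {q : Wi →₀ ℝ} {y : J.Obc c} (H : SolOn (pO J c sh σ R) σ q y) :
    EqP (pO J c sh σ R) y y :=
  ⟨fun _ _ => rfl, _, _, ceq_refl (Λ.B_ok _ _) (S.ok.G_ok S.mem H.ov) (ad0 H.adm)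
    (Job.isClopen_un S.pc).2, fun _ _ => Cnt93.eqv_refl H.adm.ok _⟩

end one

variable (J : Job Wi Λ A' h r n) (c : M.Cl) (sh : Set A') (σ : Cel A') (R : A) (q : Wi →₀ ℝ)
  (J' : Job Wi₂ Λ₂ A₃ h₂ r n) (c' : M₂.Cl) (sh' : Set A₃) (σ' : Cel A₃) (R' : A₂) (q' : Wi₂ →₀ ℝ)
  (η : h → h₂ → Prop) (s : A' → ℝ) (s' : A₃ → ℝ) (φ : (W.Z c).M → (W₂.Z c').M)
  (ψ : (W₂.Z c').M → (W.Z c).M) (U : (W.Z c).M → Option κ → Option κ → ℝ)
  (v : (W.Z c).M → CL (Eu (lam ⊕ lam)) (Eu (lam ⊕ lam)))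

/-- related configurations -/
abbrev Cr (x : Cfg (W.Z c).M (Option κ) (lam ⊕ lam) r) (x' : Cfg (W₂.Z c').M (Option κ) (lam ⊕ lam) r)
    (u : (W.Z c).M → CL x.m.V x'.m.V) (ζ : Circle) : Prop :=
  CR0 (J.B c) (J.G c s) (J'.B c') (J'.G c' s') (W.un c {hp R true}) (W₂.un c' {hp R' true}) φ U v
    x x' u ζ

/-- the correspondence of the cuts -/
structure CH : Prop where
  l : ∀ i i', η i i' → i ∈ (pO J c sh σ R).H ∧ i' ∈ (pO J' c' sh' σ' R').H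
  t : ∀ i ∈ (pO J c sh σ R).H, ∃ i', η i i'
  t' : ∀ i' ∈ (pO J' c' sh' σ' R').H, ∃ i, η i i'
  f : ∀ i j i', η i i' → η j i' → i = j
  f' : ∀ i i' j', η i i' → η i j' → i' = j'

/-- the data of the transport -/
structure TD : Prop where
  kt : KT (J.B c) (J.G c s) (J'.B c') (J'.G c' s') (W.un c {hp R true}) (W₂.un c' {hp R' true})
    φ ψ U v
  τ : PRel0 (J.B c) (J.G c s) (J'.B c') (J'.G c' s') (W.un c {hp R true}) (W₂.un c' {hp R' true})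
    φ U v (J.τ c q s) (J'.τ c' q' s')
  rel : ∀ i i', η i i' → (J.cut c i).Rel (J'.cut c' i') (W.un c {hp R true}) φ v
  sol : ∀ i i', η i i' → ∀ x x' u ζ, Cr J c R J' c' R' s s' φ U v x x' u ζ → ∀ a a',
    (J.cut c i).Eqv (J'.cut c' i') (J.B c) (J'.B c') u a a' →
    ((J'.cut c' i').Sol (J'.B c') (J'.G c' s').F (J'.σc c' q' s' i') x' a' ↔
      (J.cut c i).Sol (J.B c) (J.G c s).F (J.σc c q s i) x a)
  lm : ∀ x x' u, Cr J c R J' c' R' s s' φ U v x x' u 1 → ∀ ζ β, EL J c R s x ζ β →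
    ∃ β', EL J' c' R' s' x' ζ β' ∧ dz (J'.xs R').D β' = dz (J.xs R).D β
  lm' : ∀ x x' u, Cr J c R J' c' R' s s' φ U v x x' u 1 → ∀ ζ β', EL J' c' R' s' x' ζ β' →
    ∃ β, EL J c R s x ζ β ∧ dz (J.xs R).D β = dz (J'.xs R').D β'

variable {J c J' c'} in
/-- related objects -/
def Rl (y : J.Obc c) (y' : J'.Obc c') : Prop :=
  ∃ u, Cr J c R J' c' R' y.s y'.s φ U v y.x y'.x u 1 ∧ ∀ i i', η i i' →
    (J.cut c i).Eqv (J'.cut c' i') (J.B c) (J'.B c') u (y.ψ i) (y'.ψ i')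

variable {J c sh σ R q J' c' sh' σ' R' q' η s s' φ ψ U v} {y z : J.Obc c} {y' z' : J'.Obc c'}
  {k : ℝ}

theorem CH.symm (C : CH J c sh σ R J' c' sh' σ' R' η) : CH J' c' sh' σ' R' J c sh σ R (flip η) :=
  ⟨fun _ _ e => (C.l _ _ e).symm, C.t', C.t, fun _ _ _ => C.f' _ _ _, fun _ _ _ => C.f _ _ _⟩

theorem TD.symm (T : TD J c R q J' c' R' q' η s s' φ ψ U v) (S : Sd J c sh σ R)
    (hs : s ∈ Fa J c σ) : TD J' c' R' q' J c R q (flip η) s' s ψ φ (fun y a b => U (ψ y) b a)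
      fun y => trn (v (ψ y)) :=
  have g := T.kt.toKG
  ⟨T.kt.symm, prel0_symm g T.τ (S.ok.τ_nat S.mem (Job.ov_of (y := ⟨s, ⟨⟨0, 0, 0, 0, 0⟩, 0, 0, 0⟩, ∅,
      0, fun _ _ => ⟨⟨0, 0, 0, 0, 0⟩, 0, 0, 0⟩, 1, 0, 0, 0⟩) hs.1 hs.2) T.kt.clopen q),
    fun _ _ e => rel_symm g (T.rel _ _ e), fun _ _ e _ _ _ _ k _ _ f =>
      (T.sol _ _ e _ _ _ _ (cr_ss g k) _ _ (eqv_ss g (T.rel _ _ e) k f)).symm,
    fun _ _ _ k => T.lm' _ _ _ (inv_one (G := Circle) ▸ cr_ss g k),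
    fun _ _ _ k => T.lm _ _ _ (inv_one (G := Circle) ▸ cr_ss g k)⟩

theorem Rl.symm (T : TD J c R q J' c' R' q' η y.s y'.s φ ψ U v) (e : Rl R R' η φ U v y y') :
    Rl R' R (flip η) ψ (fun y a b => U (ψ y) b a) (fun y => trn (v (ψ y))) y' y :=
  let ⟨_, e, f⟩ := e
  ⟨_, inv_one (G := Circle) ▸ e.symm T.kt.toLG T.kt.inv,
    fun _ _ k => eqv_sy T.kt.toKG (T.rel _ _ k) e (f _ _ k)⟩

theorem Rl.ss (T : TD J c R q J' c' R' q' η y.s y'.s φ ψ U v)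
    (e : Rl R' R (flip η) ψ (fun y a b => U (ψ y) b a) (fun y => trn (v (ψ y))) y' y) :
    Rl R R' η φ U v y y' :=
  let ⟨_, e, f⟩ := e
  ⟨_, inv_one (G := Circle) ▸ cr_ss T.kt.toKG e,
    fun _ _ k => eqv_ss T.kt.toKG (T.rel _ _ k) e (f _ _ k)⟩

theorem eqp (C : CH J c sh σ R J' c' sh' σ' R' η) (T : TD J c R q J' c' R' q' η y.s y'.s φ ψ U v)
    (s1 : y.s = z.s) (s2 : y'.s = z'.s) (e : Rl R R' η φ U v y y') (f : Rl R R' η φ U v z z')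
    (H : EqP (pO J' c' sh' σ' R') y' z') : EqP (pO J c sh σ R) y z := by
  obtain ⟨_, x, _, a, β, ζ, _, j, m⟩ := z
  obtain ⟨_, x', _, a', β', ζ', _, j', m'⟩ := z'
  obtain rfl : y.s = _ := s1
  obtain rfl : y'.s = _ := s2
  obtain ⟨u, e, e'⟩ := e
  obtain ⟨w, f, f'⟩ := f
  obtain ⟨-, b, θ, H, H'⟩ := H
  refine ⟨fun _ _ => rfl, _, _, ceq_cj T.kt.toKG e f H, fun i hi => ?_⟩
  obtain ⟨i', k⟩ := C.t i hi
  exact eqv_cj T.kt.toKG e f H (T.rel _ _ k) (e' _ _ k) (f' _ _ k) (H' _ (C.l _ _ k).2)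

theorem eqp_iff (S : Sd J c sh σ R) (hs : y.s ∈ Fa J c σ) (C : CH J c sh σ R J' c' sh' σ' R' η)
    (T : TD J c R q J' c' R' q' η y.s y'.s φ ψ U v) (s1 : y.s = z.s) (s2 : y'.s = z'.s)
    (e : Rl R R' η φ U v y y') (f : Rl R R' η φ U v z z') :
    EqP (pO J c sh σ R) y z ↔ EqP (pO J' c' sh' σ' R') y' z' := by
  refine ⟨eqp C.symm (T.symm S hs) s2 s1 (e.symm T) (f.symm (q := q) (q' := q') ?_),
    eqp C T s1 s2 e f⟩
  rw [← s1, ← s2]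
  exact T

theorem os_push (S : Sd J c sh σ R) (S' : Sd J' c' sh' σ' R') (C : CH J c sh σ R J' c' sh' σ' R' η)
    (T : TD J c R q J' c' R' q' η y.s s' φ ψ U v) (hs : s' ∈ Fa J' c' σ')
    (H : OS J c sh σ q R k y) :
    ∃ y' : J'.Obc c', y'.s = s' ∧ Rl R R' η φ U v y y' ∧ OS J' c' sh' σ' q' R' k y' := by
  classical
  obtain ⟨x0, h0⟩ := S'.ins _ hs
  obtain ⟨x', u, e⟩ := push T.kt x0 h0 (ad0 H.sol.adm) H.sol.off
  have l := e.lm T.kt.toKC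
  have En : (pO J c sh σ R).En R true := ⟨_, rfl, hp_some.2 ⟨rfl, rfl⟩⟩
  obtain ⟨β', b1, b2⟩ := T.lm _ _ _ e (y.ζ R true) (y.β R true)
    ⟨H.sol.crit R ⟨S.c1 ▸ rfl, S.np⟩ true En, fun ha => H.sol.lim R true ha En⟩
  have : ∀ i', ∃ a' : (J'.cut c' i').H (J'.B c') x'.m, ∀ i, η i i' →
      (J.cut c i).Eqv (J'.cut c' i') (J.B c) (J'.B c') u (y.ψ i) a' := fun i' => by
    by_cases k : ∃ i, η i i'
    · obtain ⟨i, k⟩ := k
      refine ⟨Cnt93.Rh _ _ _ _ u 1 (y.ψ i), fun j k' => ?_⟩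
      obtain rfl := C.f _ _ _ k k'
      exact (Cnt93.eqv_iff l (T.rel _ _ k)).2 ⟨1, rfl⟩
    · exact ⟨0, fun i k' => (k ⟨i, k'⟩).elim⟩
  choose a' ha' using this
  obtain ⟨γ, rfl⟩ : ∃ γ : ∀ a, YC (J'.xs a).Y.M κ (lam ⊕ lam), γ R' = β' :=
    ⟨update (fun _ => ⟨⟨0, 0, 0, 0, 0⟩, 0, 0, 0⟩) R' β', update_self ..⟩
  refine ⟨⟨s', x', ∅, a', fun a _ => γ a, fun _ _ => y.ζ R true, 0, 0, 0⟩, rfl, ⟨u, e, fun _ _ => ha' _ _⟩,
    ⟨hs.1, hs.2, ⟨e.adm'.ok, e.adm'.conn, e.adm'.sm, e.adm'.pos,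
      H.sol.adm.z.imp id (ceq_norm_z e.e).trans⟩, e.off', fun x hx => ?_, fun x hx => ?_,
      fun i => ?_, fun i' hi => ?_, ?_, ?_, int_rel T.kt.toKG (fun x hx => l.kd hx) H.sol.int⟩,
    ?_, ?_⟩
  · obtain ⟨p, hp, rfl⟩ := T.kt.inv.surj hx
    exact (T.τ.eD T.kt.toLG e hp).trans (by rw [H.sol.D p hp, map_zero, ← csL_apply, map_zero])
  · obtain ⟨p, hp, rfl⟩ := T.kt.inv.surj hx
    exact (T.τ.eC T.kt.toLG e hp).trans (by rw [H.sol.C p hp, map_zero])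
  · exact (T.τ.S e i).trans (by rw [H.sol.S, mul_zero])
  · obtain ⟨i, k⟩ := C.t' _ hi
    exact (T.sol _ _ k _ _ _ _ e _ _ (ha' _ _ k)).2 (H.sol.cut i (C.l _ _ k).1)
  · rintro a b ha ⟨_, rfl, k⟩
    obtain ⟨rfl, rfl⟩ := hp_some.1 k
    exact b1.2 ha
  · rintro a - b ⟨_, rfl, k⟩
    obtain ⟨rfl, rfl⟩ := hp_some.1 k
    exact b1.1
  · exact b2.trans H.dz
  · have := kap_on T.kt.toKG l
    rw [Caps.un, Caps.un, biUnion_singleton, biUnion_singleton] at this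
    exact this.trans H.lev

/-- **the counts outside agree** -/
theorem oc_eq (S : Sd J c sh σ R) (S' : Sd J' c' sh' σ' R') (C : CH J c sh σ R J' c' sh' σ' R' η)
    {t : (A' → ℝ) → A₃ → ℝ} (ht : BijOn t (Fa J c σ) (Fa J' c' σ'))
    (hT : ∀ s ∈ Fa J c σ, ∃ φ ψ U v, TD J c R q J' c' R' q' η s (t s) φ ψ U v) :
    oc J c sh σ q R k = oc J' c' sh' σ' q' R' k := by
  choose φ ψ U v T using hT
  have fa : ∀ {y : J.Obc c}, OS J c sh σ q R k y → y.s ∈ Fa J c σ := fun H => ⟨H.sol.cell, H.sol.inf⟩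
  refine card_quot_eq (fun y y' => y'.1.s = t y.1.s ∧
    Rl R R' η (φ _ (fa y.2)) (U _ (fa y.2)) (v _ (fa y.2)) y.1 y'.1) (fun y => ?_) (fun y' => ?_)
    (fun y => S.refl y.2.sol) (fun y => S'.refl y.2.sol) ?_
  · obtain ⟨y', a, b, d⟩ := os_push S S' C (T _ (fa y.2)) (ht.mapsTo (fa y.2)) y.2
    exact ⟨⟨y', d⟩, a, b⟩
  · obtain ⟨⟨s', x', _, a', β', ζ', _, j', m'⟩, H⟩ := y'
    obtain ⟨s, hs, rfl : t s = s'⟩ := ht.surjOn (⟨H.sol.cell, H.sol.inf⟩ : s' ∈ Fa J' c' σ')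
    obtain ⟨⟨_, x, _, a, β, ζ, _, j, m⟩, rfl : _ = s, b, d⟩ :=
      os_push S' S C.symm ((T s hs).symm S hs) hs H
    exact ⟨⟨_, d⟩, rfl, Rl.ss (T _ hs) b⟩
  · rintro ⟨y, H⟩ ⟨z, K⟩ ⟨⟨_, x', _, a', β', ζ', _, j', m'⟩, H'⟩ ⟨z', K'⟩ ⟨rfl : _ = t y.s, e⟩ ⟨s2, f⟩
    have key : y.s = z.s → (EqP (pO J c sh σ R) y z ↔ EqP (pO J' c' sh' σ' R')
        ⟨t y.s, x', _, a', β', ζ', _, j', m'⟩ z') := fun s1 => by
      have f' : Rl R R' η (φ _ (fa H)) (U _ (fa H)) (v _ (fa H)) z z' := by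
        obtain ⟨_, x, _, a, β, ζ, _, j, m⟩ := z
        obtain rfl : y.s = _ := s1
        exact f
      exact eqp_iff S (fa H) C (T _ (fa H)) s1 ((congrArg t s1).trans s2.symm) e f'
    refine ⟨fun E => (key (S.se _ (fa H) _ (fa K) E.1)).1 E, fun E => (key ?_).2 E⟩
    exact ht.injOn (fa H) (fa K) ((S'.se _ ⟨H'.sol.cell, H'.sol.inf⟩ _ ⟨K'.sol.cell, K'.sol.inf⟩
      E.1).trans s2)

end Crest.Agent.X212.Twn5
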