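import Crest.Agent.X212.Eqv71.Fre
import Crest.Agent.X212.Eqv71.Nat
import Crest.Agent.X212.Loc66.Paste
import Crest.Agent.X212.Tmp64.Sq

/-!
# Row 212, twins (helper5): transport of configurations along an isometry of clopen sets
-/

set_option autoImplicit false
set_option linter.unusedSectionVars false
noncomputable section
open scoped Manifold ContDiff Topology InnerProductSpace
open MeasureTheory Set Function Filter

namespace Crest.Agent.X212.Twn5
open An Pj41 Eqv71 Sob92
open Tmp64 (AdmOn)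

variable {E : Type} [NormedAddCommGroup E] [NormedSpace ℝ E] [FiniteDimensional ℝ E]
  [MeasurableSpace E] [BorelSpace E]
  {HM : Type} [TopologicalSpace HM] {I : ModelWithCorners ℝ E HM} [I.Boundaryless]
  {M : Type} [TopologicalSpace M] [ChartedSpace HM M] [IsManifold I ∞ M]
  [MeasurableSpace M] [BorelSpace M] [T2Space M] [SecondCountableTopology M]
  {ι : Type} [Fintype ι] {lam : Type} [Fintype lam]
  {E' : Type} [NormedAddCommGroup E'] [NormedSpace ℝ E'] [FiniteDimensional ℝ E']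
  [MeasurableSpace E'] [BorelSpace E']
  {HM' : Type} [TopologicalSpace HM'] {I' : ModelWithCorners ℝ E' HM'} [I'.Boundaryless]
  {M' : Type} [TopologicalSpace M'] [ChartedSpace HM' M'] [IsManifold I' ∞ M']
  [MeasurableSpace M'] [BorelSpace M'] [T2Space M'] [SecondCountableTopology M']
  {ι' : Type} [Fintype ι'] {lam' : Type} [Fintype lam']
  {B : Base M ι lam} {G : Geo I M ι lam} {B' : Base M' ι' lam'} {G' : Geo I' M' ι' lam'}
  {O : Set M} {O' : Set M'} {φ : M → M'} {ψ : M' → M}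
  {U : M → ι' → ι → ℝ} {v : M → CL (Eu lam) (Eu lam')} {r : ℕ}

/-- the isometry as a partial homeomorphism -/
def kph (g : KG B G B' G' O O' φ ψ U v) : OpenPartialHomeomorph M M' where
  toFun := φ
  invFun := ψ
  source := O
  target := O'
  map_source' := g.inv.maps
  map_target' := g.inv.maps'
  left_inv' := g.inv.linv
  right_inv' := g.inv.rinv
  open_source := g.rot.opn
  open_target := g.inv.opn'
  continuousOn_toFun x hx := (g.rot.sφ x hx).continuousAt.continuousWithinAt
  continuousOn_invFun y hy := (g.inv.sψ y hy).continuousAt.continuousWithinAt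

theorem kgeq (g : KG B G B' G' O O' φ ψ U v) : GEq B G B' G' (kph g) U v :=
  LG.geq (φ := kph g) g.toLG (fun y hy => (g.inv.sψ y hy).contMDiffWithinAt) g.μ

/-- **pull-back** over `O`, any filling of the complement -/
theorem pull_cr (g : KC B G B' G' O O' φ ψ U v) {r₀ : ℕ} (x0 : Cfg M ι lam r₀)
    (h0 : AdmOn x0 B G Oᶜ) {x' : Cfg M' ι' lam' r} (hx : Ad0 x' B' G')
    (off : ∀ y ∉ O', x'.Φ y = 0) : ∃ x u, CR0 B G B' G' O O' φ U v x x' u 1 := by
  have := Sob92.scs (I := I) (M := M)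
  have q := kgeq g.toKG
  have hs : O ⊆ (kph g.toKG).source := subset_rfl
  have hm : MapsTo (kph g.toKG) O univ := fun _ _ => trivial
  have o := OK.on hx.ok univ
  have k1 := pull_ok q hs hm g.hB o
  have k2 := pull_conn q hs hm g.hG.P g.hG'.P o (IsConn.on hx.conn univ)
  obtain ⟨n, a, a', X, n1, n2, n3, -, n5, -, -⟩ := Loc66.glue2 (u := 0) g.clopen.isOpen
    g.clopen.compl.isOpen (fun x => em (x ∈ O)) k1 h0.ok g.hG.P k2 h0.conn
    ⟨fun _ h => (h.2 h.1).elim, fun _ h => (h.2 h.1).elim, fun _ h => (h.2 h.1).elim,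
      fun _ h => (h.2 h.1).elim, fun _ h => (h.2 h.1).elim⟩ fun _ h => (h.2 h.1).elim
  have s := n3.symm k1 (OK.on n1 _)
  have e := mEq_of_iso0 q hs hm o s
  have f : ∀ p ∈ O, ad (a p) (O.indicator (fun p => a p (x'.Φ (φ p))) p) = x'.Φ (φ p) :=
    fun p hp => by
      rw [indicator_of_mem hp]
      exact (congrArg (fun T : CL _ _ => T (x'.Φ (φ p))) (n3.iso p hp).src).trans (p_Φ hx _)
  refine ⟨⟨n, X, O.indicator fun p => a p (x'.Φ (φ p)), x'.z⟩, fun p => ad (a p),
    ⟨n1, n2, sm_ind g.clopen fun p hp => (n3.su p hp).clm_apply (g.rot.sa_comp hp (hx.sm _)),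
      fun p => ?_⟩, hx, fun p hp => indicator_of_notMem hp fun p => a p (x'.Φ (φ p)), off, e,
    par_iff_par0.2 (n5.symm n3.su k2.sk (IsConn.on n2 O).sk), fun p hp => ?_, by simp⟩
  · by_cases hp : p ∈ O
    · have t := (me_of_meq e hp).pp (g.be p hp) g.hB g.hB' n1
        (O.indicator (fun p => a p (x'.Φ (φ p))) p)
      have t' : ∀ w, a p (ad (a p) w) = n.p p w := fun w =>
        congrArg (fun T : CL _ _ => T w) (n3.iso p hp).tgt
      simp only [f p hp] at t
      rw [show x'.m.pp B' (kph g.toKG p) (x'.Φ (φ p)) = x'.Φ (φ p) from hx.pos _] at t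
      have t2 := congrArg (a p) t
      rw [t', p_pp n1] at t2
      exact t2.symm.trans (indicator_of_mem hp (fun p => a p (x'.Φ (φ p)))).symm
    · simp only [indicator_of_notMem hp, map_zero]
  · rw [Circle.coe_one, cs_one]; exact (f p hp).symm

/-- **push-forward** over `O`, any filling of the complement -/
theorem push (g : KT B G B' G' O O' φ ψ U v) {r₀ : ℕ} (x0 : Cfg M' ι' lam' r₀)
    (h0 : AdmOn x0 B' G' O'ᶜ) {x : Cfg M ι lam r} (hx : Ad0 x B G) (off : ∀ y ∉ O, x.Φ y = 0) :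
    ∃ x' u, CR0 B G B' G' O O' φ U v x x' u 1 := by
  obtain ⟨x', u, k⟩ := pull_cr g.toKC.symm x0 h0 hx off
  have l := k.symm g.toKC.symm.toLG g.toKC.symm.inv
  rw [inv_one] at l
  exact ⟨x', _, l.adm, l.adm', l.off, l.off', ceq_symm_symm g.inv l.e⟩

theorem pull (g : KT B G B' G' O O' φ ψ U v) {r₀ : ℕ} (x0 : Cfg M ι lam r₀)
    (h0 : AdmOn x0 B G Oᶜ) {x' : Cfg M' ι' lam' r} (hx : Ad0 x' B' G')
    (off : ∀ y ∉ O', x'.Φ y = 0) : ∃ x u, CR0 B G B' G' O O' φ U v x x' u 1 :=
  pull_cr g.toKC x0 h0 hx off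

end Crest.Agent.X212.Twn5
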